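import Vale.Agent.P361.LRO.Energy.Bridge

/-! # P361 LRO, block (7): energy of a cube of the torus (helper348) -/

namespace Vale.Agent.P361.LRO.Energy

open Matrix Finset

set_option linter.unusedSectionVars false

noncomputable section

variable {n : ℕ} [NeZero n]

/-- second end of the edge `(x, x + e_i)` -/
def nxt (z : Tor n × Fin 3) : Tor n := z.1 + Pi.single z.2 1

theorem edges_map_sum (F : Tor n × Tor n → ℝ) :
    ((edges n).map F).sum = ∑ z : Tor n × Fin 3, F (z.1, nxt z) := by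
  rw [edges, List.map_map, ← Finset.sum_map_toList]
  rfl

theorem edges_sum (F : Tor n × Tor n → ℝ) :
    ∑ i : Fin (edges n).length, F ((edges n).get i) = ∑ z : Tor n × Fin 3, F (z.1, nxt z) := by
  rw [← edges_map_sum, ← Fin.sum_univ_fun_getElem]
  rfl

/-- bonds touching `Q` -/
def tch (Q : Finset (Tor n)) : Finset (Tor n × Fin 3) := Finset.univ.filter fun z => z.1 ∈ Q ∨ nxt z ∈ Q

/-- boundary bonds of `Q` -/
def bdy (Q : Finset (Tor n)) : Finset (Tor n × Fin 3) :=
  Finset.univ.filter fun z => (z.1 ∈ Q ∨ nxt z ∈ Q) ∧ ¬ (z.1 ∈ Q ∧ nxt z ∈ Q)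

/-- energy of a bond -/
def eb (n : ℕ) [NeZero n] (β : ℝ) (h : Tor n → ℝ) (z : Tor n × Fin 3) : ℝ :=
  gib (edges n) β h (LRO.hM z.1 (nxt z))

theorem energy_torus {β : ℝ} (hβ : 0 ≤ β) {h : Tor n → ℝ} (Q : Finset (Tor n)) (hh : ∀ x ∈ Q, 0 ≤ h x) :
    β * ∑ z ∈ tch Q, eb n β h z ≤ Q.card * Real.log 2 + β * ((bdy Q).card : ℝ) := by
  have h1 := energy_list hβ (edges n) Q hh
  have h2 : ∑ i : Fin (edges n).length with (((edges n).get i).1 ∈ Q ∨ ((edges n).get i).2 ∈ Q),
      gib (edges n) β h (LRO.hM ((edges n).get i).1 ((edges n).get i).2) = ∑ z ∈ tch Q, eb n β h z := by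
    rw [Finset.sum_filter, tch, Finset.sum_filter]
    exact edges_sum (fun e => if e.1 ∈ Q ∨ e.2 ∈ Q then gib (edges n) β h (LRO.hM e.1 e.2) else 0)
  have h3 : ((Finset.univ.filter fun i : Fin (edges n).length =>
        (((edges n).get i).1 ∈ Q ∨ ((edges n).get i).2 ∈ Q) ∧
          ¬ (((edges n).get i).1 ∈ Q ∧ ((edges n).get i).2 ∈ Q)).card : ℝ) = ((bdy Q).card : ℝ) := by
    rw [Finset.card_filter, bdy, Finset.card_filter]
    push_cast
    exact edges_sum (fun e => if (e.1 ∈ Q ∨ e.2 ∈ Q) ∧ ¬ (e.1 ∈ Q ∧ e.2 ∈ Q) then 1 else 0)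
  rw [h2, h3] at h1
  exact h1

theorem mem_cube {x y : Tor n} {l : ℕ} : y ∈ cube n x l ↔ ∃ a : Fin 3 → Fin l, y = x + fun i => ((a i : ℕ) : ZMod n) := by
  simp only [cube, Finset.mem_image, Finset.mem_univ, true_and]
  exact ⟨fun ⟨a, h⟩ => ⟨a, h.symm⟩, fun ⟨a, h⟩ => ⟨a, h.symm⟩⟩

theorem card_cube_le (x : Tor n) (l : ℕ) : (cube n x l).card ≤ l ^ 3 := by
  refine (Finset.card_image_le).trans ?_
  rw [Finset.card_univ, Fintype.card_fun, Fintype.card_fin, Fintype.card_fin]

/-- a face: the `i`-th coordinate is fixed -/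
def face (n : ℕ) [NeZero n] (x : Tor n) (l : ℕ) (i : Fin 3) (c : Fin l) : Finset (Tor n) :=
  (Finset.univ : Finset ({j : Fin 3 // j ≠ i} → Fin l)).image fun a =>
    x + fun j => (((if h : j ≠ i then a ⟨j, h⟩ else c : Fin l) : ℕ) : ZMod n)

theorem card_face_le (x : Tor n) (l : ℕ) (i : Fin 3) (c : Fin l) : (face n x l i c).card ≤ l ^ 2 := by
  refine (Finset.card_image_le).trans ?_
  rw [Finset.card_univ, Fintype.card_fun, Fintype.card_fin]
  have : Fintype.card {j : Fin 3 // j ≠ i} = 2 := by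
    rw [Fintype.card_subtype_compl, Fintype.card_fin, Fintype.card_unique]
  rw [this]

theorem mem_face {x : Tor n} {l : ℕ} {i : Fin 3} {c : Fin l} {a : Fin 3 → Fin l} (h : a i = c) :
    (x + fun j => ((a j : ℕ) : ZMod n)) ∈ face n x l i c := by
  rw [face, Finset.mem_image]
  refine ⟨fun j => a j.1, Finset.mem_univ _, ?_⟩
  congr 1
  funext j
  by_cases hj : j ≠ i
  · rw [dif_pos hj]
  · rw [dif_neg hj]
    rw [not_not] at hj
    rw [hj, h]

theorem card_bdy_le (x : Tor n) {l : ℕ} (hl : 0 < l) : (bdy (cube n x l)).card ≤ 6 * l ^ 2 := by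
  classical
  have hsub : bdy (cube n x l) ⊆
      (Finset.univ : Finset (Fin 3)).biUnion fun i =>
        ((face n x l i ⟨l - 1, by omega⟩).image fun y => (y, i)) ∪
          ((face n x l i ⟨0, hl⟩).image fun y => (y - Pi.single i 1, i)) := by
    rintro ⟨y, i⟩ hz
    rw [bdy, Finset.mem_filter] at hz
    obtain ⟨-, hor, hnot⟩ := hz
    rw [Finset.mem_biUnion]
    refine ⟨i, Finset.mem_univ _, ?_⟩
    rw [Finset.mem_union, Finset.mem_image, Finset.mem_image]
    rcases hor with h1 | h1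
    · left
      have h2 : nxt (y, i) ∉ cube n x l := fun h => hnot ⟨h1, h⟩
      obtain ⟨a, ha⟩ := mem_cube.1 h1
      have h3 : (a i : ℕ) = l - 1 := by
        by_contra hne
        have hlt : (a i : ℕ) + 1 < l := by have := (a i).2; omega
        refine h2 (mem_cube.2 ⟨Function.update a i ⟨(a i : ℕ) + 1, hlt⟩, ?_⟩)
        simp only [nxt]
        have ha' : y = x + fun i => ((a i : ℕ) : ZMod n) := ha
        rw [ha', add_assoc]
        congr 1
        funext j
        by_cases hj : j = i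
        · subst hj
          simp
        · simp [hj]
      refine ⟨y, ?_, rfl⟩
      have ha' : y = x + fun i => ((a i : ℕ) : ZMod n) := ha
      rw [ha']
      exact mem_face (Fin.ext h3)
    · right
      have h2 : y ∉ cube n x l := fun h => hnot ⟨h, h1⟩
      obtain ⟨a, ha⟩ := mem_cube.1 h1
      have ha' : y + Pi.single i 1 = x + fun i => ((a i : ℕ) : ZMod n) := ha
      have h3 : (a i : ℕ) = 0 := by
        by_contra hne
        have hlt : (a i : ℕ) - 1 < l := by have := (a i).2; omega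
        refine h2 (mem_cube.2 ⟨Function.update a i ⟨(a i : ℕ) - 1, hlt⟩, ?_⟩)
        have h4 : y = (x + fun i => ((a i : ℕ) : ZMod n)) - Pi.single i 1 := by rw [← ha']; abel
        rw [h4, add_sub_assoc]
        congr 1
        funext j
        by_cases hj : j = i
        · subst hj
          simp only [Pi.sub_apply, Pi.single_eq_same, Function.update_self]
          rw [Nat.cast_sub (by omega)]
          simp
        · simp [hj]
      refine ⟨y + Pi.single i 1, ?_, by simp⟩
      rw [ha']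
      exact mem_face (Fin.ext h3)
  refine (Finset.card_le_card hsub).trans ?_
  refine (Finset.card_biUnion_le).trans ?_
  have h1 : ∀ i : Fin 3, (((face n x l i ⟨l - 1, by omega⟩).image fun y => (y, i)) ∪
          ((face n x l i ⟨0, hl⟩).image fun y => (y - Pi.single i 1, i))).card ≤ 2 * l ^ 2 := by
    intro i
    refine (Finset.card_union_le _ _).trans ?_
    have h1 := (Finset.card_image_le (s := face n x l i ⟨l - 1, by omega⟩) (f := fun y => (y, i))).trans
      (card_face_le x l i _)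
    have h2 := (Finset.card_image_le (s := face n x l i ⟨0, hl⟩)
      (f := fun y => (y - (Pi.single i 1 : Tor n), i))).trans (card_face_le x l i _)
    omega
  refine (Finset.sum_le_sum fun i _ => h1 i).trans ?_
  simp
  omega

/-- energy of a cube -/
theorem energy_cube {β : ℝ} (hβ : 0 ≤ β) {h : Tor n → ℝ} (hh : ∀ x, 0 ≤ h x) (x : Tor n) {l : ℕ} (hl : 0 < l) :
    β * ∑ z ∈ tch (cube n x l), eb n β h z ≤ (l : ℝ) ^ 3 + 6 * β * (l : ℝ) ^ 2 := by
  have h1 := energy_torus hβ (cube n x l) (fun y _ => hh y)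
  have h2 : ((cube n x l).card : ℝ) ≤ (l : ℝ) ^ 3 := by exact_mod_cast card_cube_le x l
  have h3 : ((bdy (cube n x l)).card : ℝ) ≤ 6 * (l : ℝ) ^ 2 := by exact_mod_cast card_bdy_le x hl
  have h4 : Real.log 2 ≤ 1 := by
    have := Real.log_two_lt_d9
    linarith
  have h5 : 0 ≤ Real.log 2 := Real.log_nonneg (by norm_num)
  have h6 : ((cube n x l).card : ℝ) * Real.log 2 ≤ (l : ℝ) ^ 3 * 1 :=
    mul_le_mul h2 h4 h5 (by positivity)
  have h7 := mul_le_mul_of_nonneg_left h3 hβ
  linarith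

end

end Vale.Agent.P361.LRO.Energy
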