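import Mathlib

/-!
Shared definitions for the operator part (spin 1/2 on a finite set of sites `V`).
-/

namespace Vale.Agent.P361.LRO.Energy

open Matrix Finset

noncomputable section

/-- Spin-1/2 configurations, `0` = up. -/
abbrev Cfg (V : Type*) := V → Fin 2

variable {V : Type*} [Fintype V] [DecidableEq V]

/-- The permutation operator `P_{xy}` on configurations. -/
def swapM (x y : V) : Matrix (Cfg V) (Cfg V) ℂ :=
  Matrix.of fun σ τ => if σ ∘ Equiv.swap x y = τ then 1 else 0

/-- The singlet projector `h_{xy} = (1 - P_{xy})/2`. -/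
def hM (x y : V) : Matrix (Cfg V) (Cfg V) ℂ := (1 / 2 : ℂ) • (1 - swapM x y)

/-- `S³_x`. -/
def szM (x : V) : Matrix (Cfg V) (Cfg V) ℂ :=
  Matrix.diagonal fun σ => if σ x = 0 then (1 / 2 : ℂ) else -(1 / 2)

/-- Gibbs expectation `tr (e^X A) / tr e^X`. -/
def ex {ι : Type*} [Fintype ι] [DecidableEq ι] (X A : Matrix ι ι ℂ) : ℝ :=
  (trace (NormedSpace.exp X * A)).re / (trace (NormedSpace.exp X)).re

end

end Vale.Agent.P361.LRO.Energy
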