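import Vale.Agent.P361.LRO.Energy.TorusR

/-!
The number of boundary edges of a cube.
-/

namespace Vale.Agent.P361.LRO.EnR

open Matrix Finset

noncomputable section

theorem bd_aux {n : ℕ} [NeZero n] (x : Tor n) (l : ℕ) (i : Fin 3) (T S : ℕ × ℕ → Tor n)
    (hT : ∀ z ∈ cube n x l, z + Pi.single i 1 ∉ cube n x l →
      z ∈ (range l ×ˢ range l).image T)
    (hS : ∀ z, z ∉ cube n x l → z + Pi.single i 1 ∈ cube n x l →
      z ∈ (range l ×ˢ range l).image S) :
    (univ.filter fun z : Tor n => (z ∈ cube n x l ∨ z + Pi.single i 1 ∈ cube n x l) ∧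
      ¬ (z ∈ cube n x l ∧ z + Pi.single i 1 ∈ cube n x l)).card ≤ 2 * l ^ 2 := by
  have hsub : (univ.filter fun z : Tor n => (z ∈ cube n x l ∨ z + Pi.single i 1 ∈ cube n x l) ∧
      ¬ (z ∈ cube n x l ∧ z + Pi.single i 1 ∈ cube n x l)) ⊆
      (range l ×ˢ range l).image T ∪ (range l ×ˢ range l).image S := by
    intro z hz
    rw [mem_filter] at hz
    obtain ⟨-, h1, h2⟩ := hz
    rw [mem_union]
    by_cases h3 : z ∈ cube n x l
    · left
      exact hT z h3 fun h4 => h2 ⟨h3, h4⟩
    · right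
      exact hS z h3 (h1.resolve_left h3)
  refine (card_le_card hsub).trans ((card_union_le _ _).trans ?_)
  have h1 := card_image_le (s := range l ×ˢ range l) (f := T)
  have h2 := card_image_le (s := range l ×ˢ range l) (f := S)
  rw [card_product, card_range] at h1 h2
  nlinarith

theorem bd_card_dir {n : ℕ} [NeZero n] (x : Tor n) (l : ℕ) (i : Fin 3) :
    (univ.filter fun z : Tor n => (z ∈ cube n x l ∨ z + Pi.single i 1 ∈ cube n x l) ∧
      ¬ (z ∈ cube n x l ∧ z + Pi.single i 1 ∈ cube n x l)).card ≤ 2 * l ^ 2 := by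
  fin_cases i
  · refine bd_aux x l 0 (fun q => tp n x (l - 1) q.1 q.2)
      (fun q => tp n x 0 q.1 q.2 - Pi.single 0 1) ?_ ?_
    · intro z hz hz'
      obtain ⟨a, b, c, ha, hb, hc, rfl⟩ := (mem_cube_iff x l z).mp hz
      have h1 : ¬ a + 1 < l := fun h => hz' ((mem_cube_iff x l _).mpr
        ⟨a + 1, b, c, h, hb, hc, tp_succ0 _ _ _ _ _⟩)
      have h2 : a = l - 1 := by omega
      subst h2
      exact mem_image.mpr ⟨(b, c), by simp [hb, hc], rfl⟩
    · intro z hz hz'
      obtain ⟨a, b, c, ha, hb, hc, he⟩ := (mem_cube_iff x l _).mp hz'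
      have h2 : a = 0 := by
        by_contra h
        obtain ⟨a', rfl⟩ := Nat.exists_eq_succ_of_ne_zero h
        rw [Nat.succ_eq_add_one, tp_succ0] at he
        have h3 := add_right_cancel he
        exact hz ((mem_cube_iff x l z).mpr ⟨a', b, c, by omega, hb, hc, h3⟩)
      subst h2
      exact mem_image.mpr ⟨(b, c), by simp [hb, hc], by
        show tp n x 0 b c - Pi.single 0 1 = z
        rw [he]; simp⟩
  · refine bd_aux x l 1 (fun q => tp n x q.1 (l - 1) q.2)
      (fun q => tp n x q.1 0 q.2 - Pi.single 1 1) ?_ ?_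
    · intro z hz hz'
      obtain ⟨a, b, c, ha, hb, hc, rfl⟩ := (mem_cube_iff x l z).mp hz
      have h1 : ¬ b + 1 < l := fun h => hz' ((mem_cube_iff x l _).mpr
        ⟨a, b + 1, c, ha, h, hc, tp_succ1 _ _ _ _ _⟩)
      have h2 : b = l - 1 := by omega
      subst h2
      exact mem_image.mpr ⟨(a, c), by simp [ha, hc], rfl⟩
    · intro z hz hz'
      obtain ⟨a, b, c, ha, hb, hc, he⟩ := (mem_cube_iff x l _).mp hz'
      have h2 : b = 0 := by
        by_contra h
        obtain ⟨b', rfl⟩ := Nat.exists_eq_succ_of_ne_zero h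
        rw [Nat.succ_eq_add_one, tp_succ1] at he
        have h3 := add_right_cancel he
        exact hz ((mem_cube_iff x l z).mpr ⟨a, b', c, ha, by omega, hc, h3⟩)
      subst h2
      exact mem_image.mpr ⟨(a, c), by simp [ha, hc], by
        show tp n x a 0 c - Pi.single 1 1 = z
        rw [he]; simp⟩
  · refine bd_aux x l 2 (fun q => tp n x q.1 q.2 (l - 1))
      (fun q => tp n x q.1 q.2 0 - Pi.single 2 1) ?_ ?_
    · intro z hz hz'
      obtain ⟨a, b, c, ha, hb, hc, rfl⟩ := (mem_cube_iff x l z).mp hz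
      have h1 : ¬ c + 1 < l := fun h => hz' ((mem_cube_iff x l _).mpr
        ⟨a, b, c + 1, ha, hb, h, tp_succ2 _ _ _ _ _⟩)
      have h2 : c = l - 1 := by omega
      subst h2
      exact mem_image.mpr ⟨(a, b), by simp [ha, hb], rfl⟩
    · intro z hz hz'
      obtain ⟨a, b, c, ha, hb, hc, he⟩ := (mem_cube_iff x l _).mp hz'
      have h2 : c = 0 := by
        by_contra h
        obtain ⟨c', rfl⟩ := Nat.exists_eq_succ_of_ne_zero h
        rw [Nat.succ_eq_add_one, tp_succ2] at he
        have h3 := add_right_cancel he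
        exact hz ((mem_cube_iff x l z).mpr ⟨a, b, c', ha, hb, by omega, h3⟩)
      subst h2
      exact mem_image.mpr ⟨(a, b), by simp [ha, hb], by
        show tp n x a b 0 - Pi.single 2 1 = z
        rw [he]; simp⟩

/-- At most `6 l²` edges have exactly one end in a cube of side `l`. -/
theorem bd_card {n : ℕ} [NeZero n] (x : Tor n) (l : ℕ) :
    (univ.filter fun e : Tor n × Fin 3 =>
      (e.1 ∈ cube n x l ∨ e.1 + Pi.single e.2 1 ∈ cube n x l) ∧
      ¬ (e.1 ∈ cube n x l ∧ e.1 + Pi.single e.2 1 ∈ cube n x l)).card ≤ 6 * l ^ 2 := by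
  rw [card_filter, Fintype.sum_prod_type_right]
  have : ∀ i : Fin 3, ∑ z : Tor n, (if (z ∈ cube n x l ∨ z + Pi.single i 1 ∈ cube n x l) ∧
      ¬ (z ∈ cube n x l ∧ z + Pi.single i 1 ∈ cube n x l) then 1 else 0) ≤ 2 * l ^ 2 := by
    intro i
    rw [← card_filter]
    exact bd_card_dir x l i
  calc _ ≤ ∑ i : Fin 3, 2 * l ^ 2 := sum_le_sum fun i _ => this i
    _ = 6 * l ^ 2 := by rw [sum_const, card_univ, Fintype.card_fin, smul_eq_mul]; ring

end

end Vale.Agent.P361.LRO.EnR
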