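import Vale.Agent.P361.TraceIneq
import Vale.Agent.P361.ManyBody

/-! # P361 LRO, block (7): trace lemmas (helper348)

`tr exp` of a principal submatrix; `tr exp (X ⊗ 1)`. -/

namespace Vale.Agent.P361.LRO.Energy

open Matrix Finset
open scoped ComplexOrder Kronecker

variable {ι κ : Type*} [Fintype ι] [DecidableEq ι] [Fintype κ] [DecidableEq κ]

/-- `tr exp` of a principal submatrix (block form) -/
theorem tr_exp_block_le {μ : Type*} [Fintype μ] [DecidableEq μ] {W : Matrix (κ ⊕ μ) (κ ⊕ μ) ℂ}
    (hW : W.IsHermitian) :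
    (trace (NormedSpace.exp (W.submatrix Sum.inl Sum.inl))).re ≤ (trace (NormedSpace.exp W)).re := by
  have hA : (W.submatrix (Sum.inl : κ → κ ⊕ μ) Sum.inl).IsHermitian := hW.submatrix _
  set A := W.submatrix (Sum.inl : κ → κ ⊕ μ) Sum.inl with hAdef
  set U := (hA.eigenvectorUnitary : Matrix κ κ ℂ) with hU
  have hUU : star U * U = 1 := Unitary.coe_star_mul_self _
  set V : Matrix (κ ⊕ μ) (κ ⊕ μ) ℂ := Matrix.fromBlocks U 0 0 1 with hV
  have hstar : star V = Matrix.fromBlocks (star U) 0 0 1 := by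
    rw [hV, Matrix.star_eq_conjTranspose, Matrix.fromBlocks_conjTranspose]
    simp [Matrix.star_eq_conjTranspose]
  have hVV : star V * V = 1 := by
    rw [hstar, hV, Matrix.fromBlocks_multiply]
    simp [hUU, Matrix.fromBlocks_one]
  have hWb : W = Matrix.fromBlocks A W.toBlocks₁₂ W.toBlocks₂₁ W.toBlocks₂₂ := by
    conv_lhs => rw [← Matrix.fromBlocks_toBlocks W]
    rfl
  have hP := peierls hW hVV
  refine le_trans ?_ hP
  rw [Fintype.sum_sum_type, trace_exp_re hA]
  have hx : ∀ i : κ, ((star V * W * V) (Sum.inl i) (Sum.inl i)).re = hA.eigenvalues i := by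
    intro i
    have h2 : (star V * W * V) (Sum.inl i) (Sum.inl i) = (star U * A * U) i i := by
      rw [hstar, hV, hWb, Matrix.fromBlocks_multiply, Matrix.fromBlocks_multiply,
        Matrix.fromBlocks_apply₁₁]
      simp
    rw [h2]
    have h1 : A = U * diagonal (RCLike.ofReal ∘ hA.eigenvalues) * star U := by
      have := hA.spectral_theorem
      rwa [Unitary.conjStarAlgAut_apply] at this
    have h3 : star U * A * U = diagonal (RCLike.ofReal ∘ hA.eigenvalues) := by
      calc star U * A * U = star U * (U * diagonal (RCLike.ofReal ∘ hA.eigenvalues) * star U) * U := by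
            rw [← h1]
        _ = (star U * U) * diagonal (RCLike.ofReal ∘ hA.eigenvalues) * (star U * U) := by
            simp only [Matrix.mul_assoc]
        _ = _ := by rw [hUU, Matrix.one_mul, Matrix.mul_one]
    rw [h3, Matrix.diagonal_apply_eq]
    simp
  simp only [hx]
  exact le_add_of_nonneg_right (Finset.sum_nonneg fun i _ => (Real.exp_pos _).le)

/-- `tr exp` of a principal submatrix -/
theorem tr_exp_submatrix_le {W : Matrix ι ι ℂ} (hW : W.IsHermitian) {f : κ → ι}
    (hf : Function.Injective f) :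
    (trace (NormedSpace.exp (W.submatrix f f))).re ≤ (trace (NormedSpace.exp W)).re := by
  classical
  let e : κ ⊕ ↥(Set.range f)ᶜ ≃ ι :=
    (Equiv.sumCongr (Equiv.ofInjective f hf) (Equiv.refl _)).trans (Equiv.Set.sumCompl (Set.range f))
  have he : ∀ k, e (Sum.inl k) = f k := by
    intro k
    simp [e]
  have h1 := tr_exp_block_le (hW.submatrix (e : κ ⊕ ↥(Set.range f)ᶜ → ι))
  rw [trace_exp_submatrix] at h1
  have h2 : (W.submatrix (e : κ ⊕ ↥(Set.range f)ᶜ → ι) e).submatrix (Sum.inl : κ → _) Sum.inl =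
      W.submatrix f f := by
    ext i j
    simp only [Matrix.submatrix_apply, he]
  rwa [h2] at h1

/-- `tr exp (X ⊗ 1)` -/
theorem tr_exp_kron_one {α β γ : Type*} [Fintype α] [DecidableEq α] [Fintype β] [DecidableEq β]
    [Fintype γ] [DecidableEq γ] (e : α × β ≃ γ) {X : Matrix α α ℂ} {Y : Matrix γ γ ℂ}
    (h : Y.submatrix e e = X ⊗ₖ (1 : Matrix β β ℂ)) :
    (trace (NormedSpace.exp Y)).re = Fintype.card β * (trace (NormedSpace.exp X)).re := by
  rw [← trace_exp_submatrix e, h]
  have h1 : X ⊗ₖ (1 : Matrix β β ℂ) = Matrix.blockDiagonal fun _ : β => X := by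
    ext ⟨i, k⟩ ⟨j, l⟩
    simp only [Matrix.kroneckerMap_apply, Matrix.blockDiagonal_apply, Matrix.one_apply]
    split_ifs <;> simp
  rw [h1, Matrix.exp_blockDiagonal, Matrix.trace_blockDiagonal]
  have h2 : ∀ k : β, (NormedSpace.exp fun _ : β => X) k = NormedSpace.exp X := by
    intro k
    open scoped Matrix.Norms.Operator in
    exact congrFun (Pi.exp_def (fun _ : β => X)) k
  simp only [h2, Finset.sum_const, Finset.card_univ, nsmul_eq_mul]
  rw [← Complex.ofReal_natCast, Complex.re_ofReal_mul]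

end Vale.Agent.P361.LRO.Energy
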