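import Vale.Agent.P361.LRO.Energy.Basic
import Vale.Agent.P361.LRO.Energy.Trace

/-! # P361 LRO, block (7a): energy bound by Peierls–Bogoliubov (helper348)

`β ∑_{e touches Q} c_e ⟨h_e⟩ ≤ |Q| log 2 + β ∑_{e ∈ ∂Q} c_e` for any finite family of bonds `e = {a e, b e}` with weights `c e ≥ 0` and any
fields `h_x ≥ 0` on `Q` (arbitrary outside `Q`). -/

namespace Vale.Agent.P361.LRO.Energy

open Matrix Finset
open scoped ComplexOrder Kronecker

set_option linter.unusedSectionVars false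

noncomputable section

variable {V : Type*} [Fintype V] [DecidableEq V]

theorem comp_swap_swap (x y : V) (σ : Cfg V) : (σ ∘ Equiv.swap x y) ∘ Equiv.swap x y = σ := by
  ext z; simp

theorem swapM_isHermitian (x y : V) : (swapM x y).IsHermitian := by
  ext σ τ
  simp only [Matrix.conjTranspose_apply, swapM, Matrix.of_apply]
  have h : (τ ∘ Equiv.swap x y = σ) ↔ (σ ∘ Equiv.swap x y = τ) := by
    constructor
    · rintro rfl; exact comp_swap_swap x y τ
    · rintro rfl; exact comp_swap_swap x y σ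
  simp only [h]
  split_ifs <;> simp

theorem swapM_sq (x y : V) : swapM x y * swapM x y = 1 := by
  ext σ τ
  rw [Matrix.mul_apply]
  simp only [swapM, Matrix.of_apply]
  rw [Finset.sum_eq_single (σ ∘ Equiv.swap x y)]
  · rw [if_pos rfl, one_mul, comp_swap_swap, Matrix.one_apply]
  · intro ρ _ hρ
    rw [if_neg (fun h => hρ h.symm), zero_mul]
  · intro h; exact absurd (Finset.mem_univ _) h

theorem hM_isHermitian (x y : V) : (hM x y).IsHermitian := by
  unfold hM
  have h1 : ((1 : Matrix (Cfg V) (Cfg V) ℂ) - swapM x y).IsHermitian :=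
    Matrix.isHermitian_one.sub (swapM_isHermitian x y)
  ext σ τ
  have := congrFun (congrFun h1 σ) τ
  rw [Matrix.conjTranspose_apply] at this
  rw [Matrix.conjTranspose_apply, Matrix.smul_apply, Matrix.smul_apply, star_smul, this]
  simp

theorem hM_sq (x y : V) : hM x y * hM x y = hM x y := by
  unfold hM
  rw [Matrix.smul_mul, Matrix.mul_smul, Matrix.sub_mul, Matrix.mul_sub, Matrix.mul_sub, swapM_sq,
    Matrix.mul_one, Matrix.one_mul, Matrix.mul_one]
  module

theorem hM_posSemidef (x y : V) : (hM x y).PosSemidef := by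
  have h : hM x y = (hM x y)ᴴ * hM x y := by
    rw [(hM_isHermitian x y).eq, hM_sq]
  rw [h]
  exact Matrix.posSemidef_conjTranspose_mul_self _

theorem one_sub_hM_posSemidef (x y : V) : ((1 : Matrix (Cfg V) (Cfg V) ℂ) - hM x y).PosSemidef := by
  have h0 : ((1 : Matrix (Cfg V) (Cfg V) ℂ) - hM x y).IsHermitian :=
    Matrix.isHermitian_one.sub (hM_isHermitian x y)
  have h : (1 : Matrix (Cfg V) (Cfg V) ℂ) - hM x y =
      ((1 : Matrix (Cfg V) (Cfg V) ℂ) - hM x y)ᴴ * ((1 : Matrix (Cfg V) (Cfg V) ℂ) - hM x y) := by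
    rw [h0.eq, Matrix.sub_mul, Matrix.mul_sub, Matrix.mul_sub, hM_sq, Matrix.mul_one,
      Matrix.one_mul, Matrix.mul_one]
    abel
  rw [h]
  exact Matrix.posSemidef_conjTranspose_mul_self _

theorem szM_isHermitian (x : V) : (szM x).IsHermitian := by
  unfold szM
  rw [Matrix.isHermitian_diagonal_iff]
  intro σ
  split_ifs <;> simp [IsSelfAdjoint]

theorem half_sub_szM_posSemidef (x : V) :
    ((1 / 2 : ℂ) • (1 : Matrix (Cfg V) (Cfg V) ℂ) - szM x).PosSemidef := by
  have h : (1 / 2 : ℂ) • (1 : Matrix (Cfg V) (Cfg V) ℂ) - szM x =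
      Matrix.diagonal fun σ : Cfg V => if σ x = 0 then (0 : ℂ) else 1 := by
    ext σ τ
    by_cases hστ : σ = τ
    · subst hστ
      simp only [Matrix.sub_apply, Matrix.smul_apply, Matrix.one_apply_eq, szM,
        Matrix.diagonal_apply_eq, smul_eq_mul]
      split_ifs <;> norm_num
    · simp [szM, hστ]
  rw [h]
  refine Matrix.PosSemidef.diagonal fun σ => ?_
  simp only [Pi.zero_apply]
  split_ifs <;> simp

theorem smul_real_posSemidef {ι : Type*} [Fintype ι] [DecidableEq ι] {A : Matrix ι ι ℂ} (hA : A.PosSemidef)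
    {c : ℝ} (hc : 0 ≤ c) : ((c : ℂ) • A).PosSemidef :=
  Matrix.PosSemidef.smul hA (by simpa using hc)

theorem smul_real_isHermitian {ι : Type*} [Fintype ι] [DecidableEq ι] {A : Matrix ι ι ℂ} (hA : A.IsHermitian)
    (c : ℝ) : ((c : ℂ) • A).IsHermitian := by
  rw [Matrix.IsHermitian, Matrix.conjTranspose_smul, hA.eq]
  simp

theorem sum_isHermitian {ι κ : Type*} [Fintype ι] [DecidableEq ι] (s : Finset κ) {A : κ → Matrix ι ι ℂ}
    (hA : ∀ k ∈ s, (A k).IsHermitian) : (∑ k ∈ s, A k).IsHermitian := by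
  classical
  induction s using Finset.induction_on with
  | empty => simp
  | insert a s ha ih =>
    rw [Finset.sum_insert ha]
    exact (hA a (Finset.mem_insert_self _ _)).add (ih fun k hk => hA k (Finset.mem_insert_of_mem hk))

/-! ### Splitting off `Q` -/

variable (Q : Finset V)

/-- configurations outside / inside `Q` -/
def splitQ : ((({x // x ∉ Q}) → Fin 2) × (({x // ¬ x ∉ Q}) → Fin 2)) ≃ Cfg V :=
  (Equiv.piEquivPiSubtypeProd (fun x => x ∉ Q) (fun _ => Fin 2)).symm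

/-- extension by `up` -/
def extQ (s : ({x // x ∉ Q}) → Fin 2) : Cfg V := splitQ Q (s, 0)

variable {Q}

theorem splitQ_out (p : (({x // x ∉ Q}) → Fin 2) × (({x // ¬ x ∉ Q}) → Fin 2)) {x : V} (hx : x ∉ Q) :
    splitQ Q p x = p.1 ⟨x, hx⟩ := by
  simp [splitQ, Equiv.piEquivPiSubtypeProd, hx]

theorem splitQ_in (p : (({x // x ∉ Q}) → Fin 2) × (({x // ¬ x ∉ Q}) → Fin 2)) {x : V} (hx : ¬ x ∉ Q) :
    splitQ Q p x = p.2 ⟨x, hx⟩ := by
  simp only [splitQ, Equiv.piEquivPiSubtypeProd, Equiv.coe_fn_symm_mk]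
  rw [dif_neg hx]

theorem extQ_out (s : ({x // x ∉ Q}) → Fin 2) {x : V} (hx : x ∉ Q) : extQ Q s x = s ⟨x, hx⟩ :=
  splitQ_out (s, 0) hx

theorem extQ_injective : Function.Injective (extQ Q) := by
  intro s t h
  have := (splitQ Q).injective h
  exact (Prod.mk.inj this).1

/-- an operator which does not act on `Q` -/
def OffQ (Q : Finset V) (A : Matrix (Cfg V) (Cfg V) ℂ) : Prop :=
  ∀ s t q q', A (splitQ Q (s, q)) (splitQ Q (t, q')) = if q = q' then A (extQ Q s) (extQ Q t) else 0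

theorem offQ_add {A B : Matrix (Cfg V) (Cfg V) ℂ} (hA : OffQ Q A) (hB : OffQ Q B) : OffQ Q (A + B) := by
  intro s t q q'
  simp only [Matrix.add_apply, hA s t q q', hB s t q q']
  split_ifs <;> simp

theorem offQ_smul (c : ℂ) {A : Matrix (Cfg V) (Cfg V) ℂ} (hA : OffQ Q A) : OffQ Q (c • A) := by
  intro s t q q'
  simp only [Matrix.smul_apply, hA s t q q']
  split_ifs <;> simp

theorem offQ_sub {A B : Matrix (Cfg V) (Cfg V) ℂ} (hA : OffQ Q A) (hB : OffQ Q B) : OffQ Q (A - B) := by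
  intro s t q q'
  simp only [Matrix.sub_apply, hA s t q q', hB s t q q']
  split_ifs <;> simp

theorem offQ_sum {κ : Type*} (s : Finset κ) {A : κ → Matrix (Cfg V) (Cfg V) ℂ} (hA : ∀ k ∈ s, OffQ Q (A k)) :
    OffQ Q (∑ k ∈ s, A k) := by
  classical
  induction s using Finset.induction_on with
  | empty =>
    intro s t q q'
    simp
  | insert a s ha ih =>
    rw [Finset.sum_insert ha]
    exact offQ_add (hA a (Finset.mem_insert_self _ _)) (ih fun k hk => hA k (Finset.mem_insert_of_mem hk))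

theorem splitQ_eq_iff (s t : ({x // x ∉ Q}) → Fin 2) (q q' : ({x // ¬ x ∉ Q}) → Fin 2) :
    splitQ Q (s, q) = splitQ Q (t, q') ↔ q = q' ∧ extQ Q s = extQ Q t := by
  rw [(splitQ Q).injective.eq_iff, extQ_injective.eq_iff, Prod.mk.injEq]
  exact and_comm

theorem offQ_one : OffQ Q (1 : Matrix (Cfg V) (Cfg V) ℂ) := by
  intro s t q q'
  simp only [Matrix.one_apply, splitQ_eq_iff]
  split_ifs <;> simp_all

theorem offQ_szM {x : V} (hx : x ∉ Q) : OffQ Q (szM x) := by
  intro s t q q'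
  simp only [szM, Matrix.diagonal_apply, splitQ_eq_iff, extQ_out _ hx, splitQ_out _ hx]
  by_cases h1 : q = q'
  · simp [h1]
  · simp [h1]

theorem swap_comp_split {x y : V} (hx : x ∉ Q) (hy : y ∉ Q) (s : ({x // x ∉ Q}) → Fin 2)
    (q : ({x // ¬ x ∉ Q}) → Fin 2) : splitQ Q (s, q) ∘ Equiv.swap x y =
      splitQ Q (s ∘ Equiv.swap ⟨x, hx⟩ ⟨y, hy⟩, q) := by
  funext z
  by_cases hz : z ∉ Q
  · rw [splitQ_out _ hz, Function.comp_apply]
    have h1 : Equiv.swap x y z = ((Equiv.swap (⟨x, hx⟩ : {x // x ∉ Q}) ⟨y, hy⟩ ⟨z, hz⟩ : {x // x ∉ Q}) : V) := by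
      rw [Equiv.swap_apply_def, Equiv.swap_apply_def]
      simp only [Subtype.mk.injEq]
      split_ifs <;> rfl
    have h2 : Equiv.swap x y z ∉ Q := by
      rw [h1]
      exact (Equiv.swap (⟨x, hx⟩ : {x // x ∉ Q}) ⟨y, hy⟩ ⟨z, hz⟩).property
    rw [splitQ_out _ h2]
    simp only [Function.comp_apply]
    congr 1
    exact Subtype.ext h1
  · have h1 : z ≠ x := by rintro rfl; exact hz hx
    have h2 : z ≠ y := by rintro rfl; exact hz hy
    rw [splitQ_in _ hz, Function.comp_apply, Equiv.swap_apply_of_ne_of_ne h1 h2, splitQ_in _ hz]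

theorem offQ_swapM {x y : V} (hx : x ∉ Q) (hy : y ∉ Q) : OffQ Q (swapM x y) := by
  intro s t q q'
  have h0 : extQ Q s ∘ Equiv.swap x y = extQ Q (s ∘ Equiv.swap ⟨x, hx⟩ ⟨y, hy⟩) :=
    swap_comp_split hx hy s 0
  simp only [swapM, Matrix.of_apply, h0, swap_comp_split hx hy, splitQ_eq_iff]
  by_cases h1 : q = q'
  · simp [h1]
  · simp [h1]

theorem offQ_hM {x y : V} (hx : x ∉ Q) (hy : y ∉ Q) : OffQ Q (hM x y) :=
  offQ_smul _ (offQ_sub offQ_one (offQ_swapM hx hy))

theorem tr_exp_offQ {A : Matrix (Cfg V) (Cfg V) ℂ} (hA : OffQ Q A) :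
    (trace (NormedSpace.exp A)).re =
      (2 : ℝ) ^ Q.card * (trace (NormedSpace.exp (A.submatrix (extQ Q) (extQ Q)))).re := by
  have h : A.submatrix (splitQ Q) (splitQ Q) =
      (A.submatrix (extQ Q) (extQ Q)) ⊗ₖ (1 : Matrix (({x // ¬ x ∉ Q}) → Fin 2) (({x // ¬ x ∉ Q}) → Fin 2) ℂ) := by
    ext ⟨s, q⟩ ⟨t, q'⟩
    rw [Matrix.submatrix_apply, hA s t q q', Matrix.kroneckerMap_apply, Matrix.one_apply,
      Matrix.submatrix_apply]
    split_ifs <;> simp
  rw [tr_exp_kron_one (splitQ Q) h]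
  congr 1
  rw [Fintype.card_fun, Fintype.card_fin]
  have : Fintype.card {x // ¬ x ∉ Q} = Q.card := by
    rw [Fintype.card_subtype]
    congr 1
    ext x
    simp
  rw [this]
  push_cast
  rfl

/-- both ends in `Q`: no energy when `Q` is up -/
theorem hM_sub_in {x y : V} (hx : x ∈ Q) (hy : y ∈ Q) : (hM x y).submatrix (extQ Q) (extQ Q) = 0 := by
  ext s t
  have h1 : extQ Q s ∘ Equiv.swap x y = extQ Q s := by
    funext z
    simp only [Function.comp_apply, extQ]
    have h0 : ∀ {w : V}, w ∈ Q → splitQ Q (s, 0) w = 0 := by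
      intro w hw
      rw [splitQ_in _ (not_not.2 hw)]
      rfl
    rcases eq_or_ne z x with rfl | hzx
    · rw [Equiv.swap_apply_left, h0 hy, h0 hx]
    · rcases eq_or_ne z y with rfl | hzy
      · rw [Equiv.swap_apply_right, h0 hx, h0 hy]
      · rw [Equiv.swap_apply_of_ne_of_ne hzx hzy]
  simp only [Matrix.submatrix_apply, hM, Matrix.smul_apply, Matrix.sub_apply, swapM, Matrix.of_apply, h1,
    Matrix.one_apply, sub_self, smul_zero, Matrix.zero_apply]

theorem szM_sub_in {x : V} (hx : x ∈ Q) : (szM x).submatrix (extQ Q) (extQ Q) =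
    (1 / 2 : ℂ) • (1 : Matrix (({x // x ∉ Q}) → Fin 2) (({x // x ∉ Q}) → Fin 2) ℂ) := by
  ext s t
  have h0 : extQ Q s x = 0 := by
    rw [extQ, splitQ_in _ (not_not.2 hx)]
    rfl
  by_cases hst : s = t
  · subst hst
    simp [szM, h0]
  · have : extQ Q s ≠ extQ Q t := fun h => hst (extQ_injective h)
    simp [szM, this, hst]

variable {ι : Type*} [Fintype ι] [DecidableEq ι]

/-- exponent of the Gibbs state: `β (∑_x h_x S³_x - ∑_e c_e h_e)` -/
def gibX (β : ℝ) (h : V → ℝ) (a b : ι → V) (c : ι → ℝ) : Matrix (Cfg V) (Cfg V) ℂ :=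
  ∑ x, ((β * h x : ℝ) : ℂ) • szM x - ∑ e, ((β * c e : ℝ) : ℂ) • hM (a e) (b e)

theorem gibX_isHermitian (β : ℝ) (h : V → ℝ) (a b : ι → V) (c : ι → ℝ) : (gibX β h a b c).IsHermitian :=
  (sum_isHermitian _ fun _ _ => smul_real_isHermitian (szM_isHermitian _) _).sub
    (sum_isHermitian _ fun _ _ => smul_real_isHermitian (hM_isHermitian _ _) _)

theorem ex_add (X A B : Matrix (Cfg V) (Cfg V) ℂ) : ex X (A + B) = ex X A + ex X B := by
  unfold ex
  rw [Matrix.mul_add, Matrix.trace_add, Complex.add_re, add_div]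

theorem ex_smul (X : Matrix (Cfg V) (Cfg V) ℂ) (c : ℝ) (A : Matrix (Cfg V) (Cfg V) ℂ) :
    ex X ((c : ℂ) • A) = c * ex X A := by
  unfold ex
  rw [Matrix.mul_smul, Matrix.trace_smul, smul_eq_mul, Complex.re_ofReal_mul, mul_div_assoc]

theorem ex_zero (X : Matrix (Cfg V) (Cfg V) ℂ) : ex X 0 = 0 := by
  simp [ex]

theorem ex_sum {κ : Type*} (X : Matrix (Cfg V) (Cfg V) ℂ) (s : Finset κ) (A : κ → Matrix (Cfg V) (Cfg V) ℂ) :
    ex X (∑ k ∈ s, A k) = ∑ k ∈ s, ex X (A k) := by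
  classical
  induction s using Finset.induction_on with
  | empty => simp [ex_zero]
  | insert a s ha ih => rw [Finset.sum_insert ha, Finset.sum_insert ha, ex_add, ih]

/-- **(7a)** energy of the bonds touching `Q` -/
theorem energy_le {β : ℝ} (hβ : 0 ≤ β) (h : V → ℝ) (a b : ι → V) {c : ι → ℝ} (hc : ∀ e, 0 ≤ c e) (Q : Finset V)
    (hh : ∀ x ∈ Q, 0 ≤ h x) :
    β * ∑ e with (a e ∈ Q ∨ b e ∈ Q), c e * ex (gibX β h a b c) (hM (a e) (b e)) ≤
      Q.card * Real.log 2 + β * ∑ e with ((a e ∈ Q ∨ b e ∈ Q) ∧ ¬ (a e ∈ Q ∧ b e ∈ Q)), c e := by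
  classical
  set X := gibX β h a b c with hX
  have hXh : X.IsHermitian := gibX_isHermitian β h a b c
  -- the part of the Hamiltonian touching Q
  set T : Finset ι := Finset.univ.filter fun e => (a e ∈ Q ∨ b e ∈ Q) with hT
  set Y : Matrix (Cfg V) (Cfg V) ℂ := ∑ e ∈ T, ((β * c e : ℝ) : ℂ) • hM (a e) (b e) with hY
  have hYh : Y.IsHermitian := sum_isHermitian _ fun _ _ => smul_real_isHermitian (hM_isHermitian _ _) _
  have hPB := peierls_bogoliubov hXh hYh
  have hexY : (trace (NormedSpace.exp X * Y)).re / (trace (NormedSpace.exp X)).re =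
      β * ∑ e ∈ T, c e * ex X (hM (a e) (b e)) := by
    change ex X Y = _
    rw [hY, ex_sum, Finset.mul_sum]
    refine Finset.sum_congr rfl fun e _ => ?_
    rw [ex_smul]
    ring
  -- the operator off Q
  set A : Matrix (Cfg V) (Cfg V) ℂ := ∑ x with x ∉ Q, ((β * h x : ℝ) : ℂ) • szM x -
    ∑ e with ¬ (a e ∈ Q ∨ b e ∈ Q), ((β * c e : ℝ) : ℂ) • hM (a e) (b e) with hA
  have hAoff : OffQ Q A := by
    refine offQ_sub (offQ_sum _ fun x hx => offQ_smul _ (offQ_szM (Finset.mem_filter.1 hx).2))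
      (offQ_sum _ fun e he => offQ_smul _ ?_)
    have h2 := (Finset.mem_filter.1 he).2
    rw [not_or] at h2
    exact offQ_hM h2.1 h2.2
  have hAh : A.IsHermitian :=
    (sum_isHermitian _ fun _ _ => smul_real_isHermitian (szM_isHermitian _) _).sub
      (sum_isHermitian _ fun _ _ => smul_real_isHermitian (hM_isHermitian _ _) _)
  set D : Matrix (Cfg V) (Cfg V) ℂ := ∑ x ∈ Q, ((β * h x : ℝ) : ℂ) • szM x with hD
  have hXAD : X = A + D - Y := by
    rw [hX, hA, hD, hY, gibX, hT]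
    rw [← Finset.sum_filter_add_sum_filter_not Finset.univ (fun x => x ∉ Q)
      (fun x => ((β * h x : ℝ) : ℂ) • (szM x : Matrix (Cfg V) (Cfg V) ℂ)),
      ← Finset.sum_filter_add_sum_filter_not Finset.univ (fun e => a e ∈ Q ∨ b e ∈ Q)
      (fun e => ((β * c e : ℝ) : ℂ) • (hM (a e) (b e) : Matrix (Cfg V) (Cfg V) ℂ))]
    have h3 : (Finset.univ.filter fun x => ¬ x ∉ Q) = Q := by
      ext x; simp
    rw [h3]
    abel
  set H : ℝ := ∑ x ∈ Q, β * h x / 2 with hH
  -- upper bound of tr exp (X + Y)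
  have hup : (trace (NormedSpace.exp (X + Y))).re ≤ Real.exp H * (trace (NormedSpace.exp A)).re := by
    have h1 : X + Y = A + D := by rw [hXAD]; abel
    have hDh : D.IsHermitian := sum_isHermitian _ fun _ _ => smul_real_isHermitian (szM_isHermitian _) _
    rw [h1, ← trace_exp_add_smul_one]
    refine trace_exp_mono (hAh.add hDh) (hAh.add (smul_real_isHermitian Matrix.isHermitian_one H)) ?_
    have h2 : A + (H : ℂ) • (1 : Matrix (Cfg V) (Cfg V) ℂ) - (A + D) =
        ∑ x ∈ Q, ((β * h x : ℝ) : ℂ) • ((1 / 2 : ℂ) • (1 : Matrix (Cfg V) (Cfg V) ℂ) - szM x) := by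
      simp only [smul_sub, Finset.sum_sub_distrib, smul_smul, ← Finset.sum_smul]
      rw [hH, ← hD]
      push_cast
      have h4 : (∑ x ∈ Q, (β : ℂ) * (h x : ℂ) * (1 / 2)) = ∑ x ∈ Q, (β : ℂ) * (h x : ℂ) / 2 :=
        Finset.sum_congr rfl fun x _ => by ring
      rw [h4]
      abel
    rw [h2]
    exact Matrix.posSemidef_sum _ fun x hx =>
      smul_real_posSemidef (half_sub_szM_posSemidef x) (mul_nonneg hβ (hh x hx))
  -- lower bound of tr exp X
  set G : ℝ := β * ∑ e with ((a e ∈ Q ∨ b e ∈ Q) ∧ ¬ (a e ∈ Q ∧ b e ∈ Q)), c e with hG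
  have hAsub : (A.submatrix (extQ Q) (extQ Q)).IsHermitian := hAh.submatrix _
  have hlow : Real.exp (H - G) * (trace (NormedSpace.exp (A.submatrix (extQ Q) (extQ Q)))).re ≤
      (trace (NormedSpace.exp X)).re := by
    refine le_trans ?_ (tr_exp_submatrix_le hXh (extQ_injective (Q := Q)))
    rw [← trace_exp_add_smul_one]
    refine trace_exp_mono (hAsub.add (smul_real_isHermitian Matrix.isHermitian_one _)) (hXh.submatrix _) ?_
    have hDsub : D.submatrix (extQ Q) (extQ Q) =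
        (H : ℂ) • (1 : Matrix (({x // x ∉ Q}) → Fin 2) (({x // x ∉ Q}) → Fin 2) ℂ) := by
      rw [hD, submatrix_sum_eq, hH]
      push_cast
      rw [Finset.sum_smul]
      refine Finset.sum_congr rfl fun x hx => ?_
      rw [Matrix.submatrix_smul, Pi.smul_apply, Pi.smul_apply, szM_sub_in hx, smul_smul]
      congr 1
      ring
    have h2 : X.submatrix (extQ Q) (extQ Q) - (A.submatrix (extQ Q) (extQ Q) +
        ((H - G : ℝ) : ℂ) • (1 : Matrix (({x // x ∉ Q}) → Fin 2) (({x // x ∉ Q}) → Fin 2) ℂ)) =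
        ∑ e with ((a e ∈ Q ∨ b e ∈ Q) ∧ ¬ (a e ∈ Q ∧ b e ∈ Q)), ((β * c e : ℝ) : ℂ) •
          ((1 : Matrix (Cfg V) (Cfg V) ℂ) - hM (a e) (b e)).submatrix (extQ Q) (extQ Q) := by
      have hYsub : Y.submatrix (extQ Q) (extQ Q) =
          ∑ e with ((a e ∈ Q ∨ b e ∈ Q) ∧ ¬ (a e ∈ Q ∧ b e ∈ Q)), ((β * c e : ℝ) : ℂ) •
          (hM (a e) (b e)).submatrix (extQ Q) (extQ Q) := by
        rw [hY, submatrix_sum_eq, hT, ← Finset.filter_filter, eq_comm]
        refine Finset.sum_subset_zero_on_sdiff (Finset.filter_subset _ _) ?_ ?_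
        · intro e he
          rw [Finset.mem_sdiff] at he
          have h5 : a e ∈ Q ∧ b e ∈ Q := by
            by_contra h6
            exact he.2 (Finset.mem_filter.2 ⟨he.1, h6⟩)
          rw [Matrix.submatrix_smul, Pi.smul_apply, Pi.smul_apply, hM_sub_in h5.1 h5.2, smul_zero]
        · intro e _
          rfl
      have h1sub : (1 : Matrix (Cfg V) (Cfg V) ℂ).submatrix (extQ Q) (extQ Q) =
          (1 : Matrix (({x // x ∉ Q}) → Fin 2) (({x // x ∉ Q}) → Fin 2) ℂ) :=
        Matrix.submatrix_one (extQ Q) extQ_injective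
      have e1 : X.submatrix (extQ Q) (extQ Q) = A.submatrix (extQ Q) (extQ Q) +
          D.submatrix (extQ Q) (extQ Q) - Y.submatrix (extQ Q) (extQ Q) := by
        rw [hXAD]
        rfl
      rw [e1, hDsub, hYsub]
      simp only [Matrix.submatrix_sub, Pi.sub_apply, h1sub, smul_sub, Finset.sum_sub_distrib]
      have e2 : (∑ e with ((a e ∈ Q ∨ b e ∈ Q) ∧ ¬ (a e ∈ Q ∧ b e ∈ Q)), ((β * c e : ℝ) : ℂ) •
          (1 : Matrix (({x // x ∉ Q}) → Fin 2) (({x // x ∉ Q}) → Fin 2) ℂ)) =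
          (G : ℂ) • (1 : Matrix (({x // x ∉ Q}) → Fin 2) (({x // x ∉ Q}) → Fin 2) ℂ) := by
        rw [← Finset.sum_smul, hG]
        push_cast
        rw [Finset.mul_sum]
      rw [e2]
      push_cast
      module
    rw [h2]
    exact Matrix.posSemidef_sum _ fun e _ => smul_real_posSemidef
      ((one_sub_hM_posSemidef _ _).submatrix _) (mul_nonneg hβ (hc e))
  have htA := tr_exp_offQ hAoff
  have hp1 := trace_exp_pos hXh
  have hp2 : 0 < (trace (NormedSpace.exp (A.submatrix (extQ Q) (extQ Q)))).re := trace_exp_pos hAsub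
  rw [hexY] at hPB
  have hl1 : Real.log (trace (NormedSpace.exp (X + Y))).re ≤
      H + (Q.card * Real.log 2 + Real.log (trace (NormedSpace.exp (A.submatrix (extQ Q) (extQ Q)))).re) := by
    have h1 := Real.log_le_log (trace_exp_pos (hXh.add hYh)) hup
    rwa [htA, Real.log_mul (Real.exp_pos _).ne' (by positivity), Real.log_exp,
      Real.log_mul (by positivity) hp2.ne', Real.log_pow] at h1
  have hl2 : H - G + Real.log (trace (NormedSpace.exp (A.submatrix (extQ Q) (extQ Q)))).re ≤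
      Real.log (trace (NormedSpace.exp X)).re := by
    have h1 := Real.log_le_log (by positivity) hlow
    rwa [Real.log_mul (Real.exp_pos _).ne' hp2.ne', Real.log_exp] at h1
  linarith

end

end Vale.Agent.P361.LRO.Energy
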