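import Vale.Agent.P361.LRO.Defs
import Vale.Agent.P361.LRO.Energy.PB

/-! # P361 LRO, block (7): from the complex matrices of `Energy` to the common definitions (helper348) -/

namespace Vale.Agent.P361.LRO.Energy

open Matrix Finset
open scoped ComplexOrder

set_option linter.unusedSectionVars false

noncomputable section

variable {ι : Type*} [Fintype ι] [DecidableEq ι]

/-- complexification -/
def cpx (A : Matrix ι ι ℝ) : Matrix ι ι ℂ := A.map Complex.ofReal

theorem cpx_exp (A : Matrix ι ι ℝ) : cpx (NormedSpace.exp A) = NormedSpace.exp (cpx A) := by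
  have hc : Continuous (Complex.ofRealHom.mapMatrix : Matrix ι ι ℝ →+* Matrix ι ι ℂ) :=
    Continuous.matrix_map continuous_id Complex.continuous_ofReal
  open scoped Matrix.Norms.Operator in
  exact NormedSpace.map_exp (Complex.ofRealHom.mapMatrix : Matrix ι ι ℝ →+* Matrix ι ι ℂ) hc A

theorem cpx_mul (A B : Matrix ι ι ℝ) : cpx (A * B) = cpx A * cpx B :=
  Matrix.map_mul (f := Complex.ofRealHom)

theorem cpx_trace (A : Matrix ι ι ℝ) : (trace (cpx A)).re = trace A := by
  simp [cpx, Matrix.trace, Complex.re_sum]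

theorem cpx_add (A B : Matrix ι ι ℝ) : cpx (A + B) = cpx A + cpx B := by
  ext i j; simp [cpx]

theorem cpx_sub (A B : Matrix ι ι ℝ) : cpx (A - B) = cpx A - cpx B := by
  ext i j; simp [cpx]

theorem cpx_smul (c : ℝ) (A : Matrix ι ι ℝ) : cpx (c • A) = (c : ℂ) • cpx A := by
  ext i j; simp [cpx]

theorem cpx_one : cpx (1 : Matrix ι ι ℝ) = 1 := by
  ext i j
  simp only [cpx, Matrix.map_apply, Matrix.one_apply]
  split_ifs <;> simp

theorem cpx_sum {κ : Type*} (s : Finset κ) (A : κ → Matrix ι ι ℝ) :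
    cpx (∑ k ∈ s, A k) = ∑ k ∈ s, cpx (A k) := by
  ext i j; simp [cpx, Matrix.sum_apply]

theorem cpx_ex (X A : Matrix ι ι ℝ) :
    ex (cpx X) (cpx A) = trace (NormedSpace.exp X * A) / trace (NormedSpace.exp X) := by
  unfold ex
  rw [← cpx_exp, ← cpx_mul, cpx_trace, cpx_trace]

variable {V : Type} [Fintype V] [DecidableEq V]

theorem cpx_swapM (x y : V) : cpx (LRO.swapM x y) = swapM x y := by
  ext σ τ
  simp only [cpx, LRO.swapM, swapM, Matrix.map_apply, Matrix.of_apply]
  have h : (σ = τ ∘ Equiv.swap x y) ↔ (σ ∘ Equiv.swap x y = τ) := by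
    constructor
    · rintro rfl; exact comp_swap_swap x y τ
    · rintro rfl; exact (comp_swap_swap x y σ).symm
  simp only [h]
  split_ifs <;> simp

theorem cpx_hM (x y : V) : cpx (LRO.hM x y) = hM x y := by
  rw [LRO.hM, hM, cpx_smul, cpx_sub, cpx_one, cpx_swapM]
  norm_num

theorem cpx_szM (x : V) : cpx (LRO.szM x) = (2 : ℂ) • szM x := by
  ext σ τ
  by_cases h : σ = τ
  · subst h
    simp only [cpx, LRO.szM, szM, Matrix.map_apply, Matrix.diagonal_apply_eq, Matrix.smul_apply, smul_eq_mul]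
    split_ifs <;> simp
  · simp [cpx, LRO.szM, szM, h]

theorem gib_eq (L : List (V × V)) (β : ℝ) (h : V → ℝ) (A : Matrix (V → Fin 2) (V → Fin 2) ℝ) :
    gib L β h A = ex (cpx (-β • ham L h)) (cpx A) := by
  rw [cpx_ex]
  rfl

theorem cpx_ham (L : List (V × V)) (β : ℝ) (h : V → ℝ) : cpx (-β • ham L h) =
    gibX β h (fun i : Fin L.length => (L.get i).1) (fun i => (L.get i).2) (fun _ => 1) := by
  rw [ham, gibX, ← Fin.sum_univ_fun_getElem L (fun e => LRO.hM e.1 e.2), smul_sub, cpx_sub, cpx_smul,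
    cpx_smul, cpx_sum, cpx_sum]
  simp only [cpx_smul, cpx_szM, cpx_hM, Finset.smul_sum, smul_smul]
  rw [sub_eq_add_neg, add_comm, sub_eq_add_neg, ← Finset.sum_neg_distrib, ← Finset.sum_neg_distrib]
  congr 1
  · refine Finset.sum_congr rfl fun x _ => ?_
    rw [← neg_smul]
    congr 1
    push_cast
    ring
  · refine Finset.sum_congr rfl fun x _ => ?_
    rw [← neg_smul]
    congr 1
    push_cast
    ring

theorem gib_hM (L : List (V × V)) (β : ℝ) (h : V → ℝ) (x y : V) : gib L β h (LRO.hM x y) =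
    ex (gibX β h (fun i : Fin L.length => (L.get i).1) (fun i => (L.get i).2) (fun _ => 1)) (hM x y) := by
  rw [gib_eq, cpx_ham, cpx_hM]

/-- **(7a)** for `Defs.gib` -/
theorem energy_list {β : ℝ} (hβ : 0 ≤ β) (L : List (V × V)) {h : V → ℝ} (Q : Finset V) (hh : ∀ x ∈ Q, 0 ≤ h x) :
    β * ∑ i : Fin L.length with ((L.get i).1 ∈ Q ∨ (L.get i).2 ∈ Q), gib L β h (LRO.hM (L.get i).1 (L.get i).2) ≤
      Q.card * Real.log 2 + β * ((Finset.univ.filter fun i : Fin L.length =>
        ((L.get i).1 ∈ Q ∨ (L.get i).2 ∈ Q) ∧ ¬ ((L.get i).1 ∈ Q ∧ (L.get i).2 ∈ Q)).card : ℝ) := by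
  have h1 := energy_le hβ h (fun i : Fin L.length => (L.get i).1) (fun i => (L.get i).2)
    (c := fun _ => 1) (fun _ => zero_le_one) Q hh
  simp only [one_mul, Finset.sum_const, nsmul_eq_mul, mul_one] at h1
  simpa only [gib_hM] using h1

end

end Vale.Agent.P361.LRO.Energy
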