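import Vale.Agent.P361.LRO.Energy.Swap

/-!
Canonical paths in a cube: the sum over all pairs of a `w`-cube of `‖ψ - P_{xy} ψ‖²` is at most
`12 w⁵` times the sum over the nearest neighbour edges of the cube; tiling of a cube of side `w k`.
-/

namespace Vale.Agent.P361.LRO.EnR

open Matrix Finset

noncomputable section

variable {V : Type} [Fintype V] [DecidableEq V]

/-- Squares of `nrm` for the three kinds of edges. -/
def ed0 (p : ℕ → ℕ → ℕ → V) (F : V → V → ℝ) (w : ℕ) : ℝ :=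
  ∑ t ∈ range (w - 1), ∑ b ∈ range w, ∑ c ∈ range w, F (p t b c) (p (t + 1) b c)

def ed1 (p : ℕ → ℕ → ℕ → V) (F : V → V → ℝ) (w : ℕ) : ℝ :=
  ∑ a ∈ range w, ∑ t ∈ range (w - 1), ∑ c ∈ range w, F (p a t c) (p a (t + 1) c)

def ed2 (p : ℕ → ℕ → ℕ → V) (F : V → V → ℝ) (w : ℕ) : ℝ :=
  ∑ a ∈ range w, ∑ b ∈ range w, ∑ t ∈ range (w - 1), F (p a b t) (p a b (t + 1))

/-- Sum over the nearest neighbour edges of the cube `p '' [0,w)³`. -/
def edgeSum (p : ℕ → ℕ → ℕ → V) (F : V → V → ℝ) (w : ℕ) : ℝ :=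
  ed0 p F w + ed1 p F w + ed2 p F w

/-- Sum over ordered pairs of points of the cube `p '' [0,w)³`. -/
def pairSum (p : ℕ → ℕ → ℕ → V) (F : V → V → ℝ) (w : ℕ) : ℝ :=
  ∑ a ∈ range w, ∑ b ∈ range w, ∑ c ∈ range w,
    ∑ a' ∈ range w, ∑ b' ∈ range w, ∑ c' ∈ range w, F (p a b c) (p a' b' c')

theorem nrm_swap_self (x : V) (ψ : (V → Fin 2) → ℝ) : nrm (Equiv.swap x x) ψ = 0 := by
  rw [Equiv.swap_self]; exact nrm_one ψ

theorem nrm_cube (p : ℕ → ℕ → ℕ → V) (ψ : (V → Fin 2) → ℝ) {w a b c a' b' c' : ℕ}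
    (ha : a < w) (hb : b < w) (hc : c < w) (ha' : a' < w) (hb' : b' < w) (hc' : c' < w) :
    nrm (Equiv.swap (p a b c) (p a' b' c')) ψ ≤
      2 * (∑ t ∈ range (w - 1), nrm (Equiv.swap (p t b c) (p (t + 1) b c)) ψ +
        ∑ t ∈ range (w - 1), nrm (Equiv.swap (p a' t c) (p a' (t + 1) c)) ψ +
        ∑ t ∈ range (w - 1), nrm (Equiv.swap (p a' b' t) (p a' b' (t + 1))) ψ) := by
  have h0 := nrm_seg (p a b c) (fun t => p t b c) ψ (a := a) (b := a') (m := w - 1)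
    (by omega) (by omega)
  have h1 := nrm_seg (p a b c) (fun t => p a' t c) ψ (a := b) (b := b') (m := w - 1)
    (by omega) (by omega)
  have h2 := nrm_seg (p a b c) (fun t => p a' b' t) ψ (a := c) (b := c') (m := w - 1)
    (by omega) (by omega)
  have h3 := nrm_swap_self (p a b c) ψ
  linarith

theorem sq_sum_three {n : ℕ} (f g h : ℕ → ℝ) :
    (2 * (∑ t ∈ range n, f t + ∑ t ∈ range n, g t + ∑ t ∈ range n, h t)) ^ 2 ≤
      12 * n * (∑ t ∈ range n, f t ^ 2 + ∑ t ∈ range n, g t ^ 2 + ∑ t ∈ range n, h t ^ 2) := by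
  have key : ∀ f : ℕ → ℝ, (∑ t ∈ range n, f t) ^ 2 ≤ n * ∑ t ∈ range n, f t ^ 2 := by
    intro f
    have := sq_sum_le_card_mul_sum_sq (s := range n) (f := f)
    simpa using this
  have hf := key f
  have hg := key g
  have hh := key h
  nlinarith [sq_nonneg (∑ t ∈ range n, f t - ∑ t ∈ range n, g t),
    sq_nonneg (∑ t ∈ range n, f t - ∑ t ∈ range n, h t),
    sq_nonneg (∑ t ∈ range n, g t - ∑ t ∈ range n, h t)]

theorem pair_le (p : ℕ → ℕ → ℕ → V) (ψ : (V → Fin 2) → ℝ) (w : ℕ) :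
    pairSum p (fun x y => nrm (Equiv.swap x y) ψ ^ 2) w ≤
      12 * (w : ℝ) ^ 5 * edgeSum p (fun x y => nrm (Equiv.swap x y) ψ ^ 2) w := by
  set F : V → V → ℝ := fun x y => nrm (Equiv.swap x y) ψ ^ 2 with hF
  have hF0 : ∀ x y, 0 ≤ F x y := fun x y => sq_nonneg _
  set S0 : ℕ → ℕ → ℝ := fun b c => ∑ t ∈ range (w - 1), F (p t b c) (p (t + 1) b c) with hS0
  set S1 : ℕ → ℕ → ℝ := fun a c => ∑ t ∈ range (w - 1), F (p a t c) (p a (t + 1) c) with hS1
  set S2 : ℕ → ℕ → ℝ := fun a b => ∑ t ∈ range (w - 1), F (p a b t) (p a b (t + 1)) with hS2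
  have hS0n : ∀ b c, 0 ≤ S0 b c := fun b c => sum_nonneg fun _ _ => hF0 _ _
  have hS1n : ∀ b c, 0 ≤ S1 b c := fun b c => sum_nonneg fun _ _ => hF0 _ _
  have hS2n : ∀ b c, 0 ≤ S2 b c := fun b c => sum_nonneg fun _ _ => hF0 _ _
  have h1 : pairSum p F w ≤ ∑ a ∈ range w, ∑ b ∈ range w, ∑ c ∈ range w,
      ∑ a' ∈ range w, ∑ b' ∈ range w, ∑ c' ∈ range w,
        (12 * w) * (S0 b c + S1 a' c + S2 a' b') := by
    unfold pairSum
    refine sum_le_sum fun a ha => sum_le_sum fun b hb => sum_le_sum fun c hc =>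
      sum_le_sum fun a' ha' => sum_le_sum fun b' hb' => sum_le_sum fun c' hc' => ?_
    simp only [mem_range] at ha hb hc ha' hb' hc'
    have h2 := nrm_cube p ψ ha hb hc ha' hb' hc'
    have h3 : F (p a b c) (p a' b' c') ≤ (2 * (∑ t ∈ range (w - 1),
        nrm (Equiv.swap (p t b c) (p (t + 1) b c)) ψ +
        ∑ t ∈ range (w - 1), nrm (Equiv.swap (p a' t c) (p a' (t + 1) c)) ψ +
        ∑ t ∈ range (w - 1), nrm (Equiv.swap (p a' b' t) (p a' b' (t + 1))) ψ)) ^ 2 :=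
      pow_le_pow_left₀ (nrm_nonneg _ _) h2 2
    have h4 := sq_sum_three (n := w - 1)
      (fun t => nrm (Equiv.swap (p t b c) (p (t + 1) b c)) ψ)
      (fun t => nrm (Equiv.swap (p a' t c) (p a' (t + 1) c)) ψ)
      (fun t => nrm (Equiv.swap (p a' b' t) (p a' b' (t + 1))) ψ)
    have h5 : ((w - 1 : ℕ) : ℝ) ≤ w := by exact_mod_cast Nat.sub_le w 1
    have h6 : 0 ≤ S0 b c + S1 a' c + S2 a' b' :=
      add_nonneg (add_nonneg (hS0n _ _) (hS1n _ _)) (hS2n _ _)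
    calc F (p a b c) (p a' b' c') ≤ _ := h3
      _ ≤ 12 * ((w - 1 : ℕ) : ℝ) * (S0 b c + S1 a' c + S2 a' b') := h4
      _ ≤ _ := by
        apply mul_le_mul_of_nonneg_right _ h6
        linarith
  refine h1.trans (le_of_eq ?_)
  simp only [← mul_sum, sum_add_distrib, sum_const, card_range, nsmul_eq_mul]
  have e0 : ∑ b ∈ range w, ∑ c ∈ range w, S0 b c = ed0 p F w := by
    unfold ed0
    rw [sum_comm]
    symm
    rw [sum_comm]
    calc ∑ b ∈ range w, ∑ t ∈ range (w - 1), ∑ c ∈ range w, F (p t b c) (p (t + 1) b c)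
        = ∑ b ∈ range w, ∑ c ∈ range w, S0 b c := by
          refine sum_congr rfl fun b _ => ?_
          rw [sum_comm]
      _ = _ := sum_comm
  have e1 : ∑ c ∈ range w, ∑ a ∈ range w, S1 a c = ed1 p F w := by
    unfold ed1
    rw [sum_comm]
    refine sum_congr rfl fun b _ => ?_
    rw [sum_comm]
  have e2 : ∑ a ∈ range w, ∑ b ∈ range w, S2 a b = ed2 p F w := rfl
  rw [edgeSum, ← e0, ← e1, ← e2]
  ring

end

end Vale.Agent.P361.LRO.EnR
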