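import Vale.Agent.P361.LRO.Energy.Main
import Vale.Agent.P361.LRO.Top.Iface

/-! # P361 LRO, block (7): `PEnergy 2` and `EnergyStmt` from the tiling statement (helper348) -/

namespace Vale.Agent.P361.LRO.Energy

open Matrix Finset

noncomputable section

theorem pEnergy_of_tile {C : ℝ} (hC : 0 < C) (hT : TileStmt C)
    (hcard : ∀ (n : ℕ) [NeZero n] (x : Tor n) (w : ℕ), w ≤ n → (cube n x w).card = w ^ 3) :
    PEnergy 2 := by
  refine ⟨12 * C, by positivity, ?_⟩
  intro β hβ n _ w m hw hm hwm h hh x0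
  have h3 : 3 ≤ n := by nlinarith [Nat.mul_le_mul hw hm]
  exact energy_of_tile hC.le hT hcard n (by linarith) w m hw hm (by omega) h3 h
    (fun x => (hh x).1.le) x0

theorem Db_eq_Dst {V : Type} [Fintype V] [DecidableEq V] (L : List (V × V)) (β : ℝ) (h : V → ℝ)
    (b : Finset V) : Db L β h b = Dst L β h b := by
  rw [Db, Dst]; ring

theorem energyStmt_of_tile {C : ℝ} (hC : 0 < C) (hT : TileStmt C)
    (hcard : ∀ (n : ℕ) [NeZero n] (x : Tor n) (w : ℕ), w ≤ n → (cube n x w).card = w ^ 3) :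
    EnergyStmt := by
  refine ⟨12 * C, ?_⟩
  intro n _ β h x w m hβ hh hw hm hwm
  have hm' : (0 : ℝ) < m := by exact_mod_cast hm
  have h3 : 3 ≤ n := by nlinarith [Nat.mul_le_mul hw hm]
  have h1 := energy_of_tile hC.le hT hcard n hβ w m hw hm (by omega) h3 h (fun x => (hh x).le) x
  simp only [Db_eq_Dst]
  rw [div_le_iff₀ (by positivity)]
  linarith

end

end Vale.Agent.P361.LRO.Energy
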