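import Vale.Agent.P361.LRO.Energy.Torus
import Vale.Agent.P361.LRO.Top

/-! # P361 LRO, block (7): the final form (helper348) -/

namespace Vale.Agent.P361.LRO.Energy

open Matrix Finset
open scoped ComplexOrder

set_option linter.unusedSectionVars false

noncomputable section

theorem gib_hM_nonneg {V : Type} [Fintype V] [DecidableEq V] (L : List (V × V)) (β : ℝ) (h : V → ℝ) (x y : V) :
    0 ≤ gib L β h (LRO.hM x y) := by
  rw [gib_hM]
  exact div_nonneg (trace_exp_mul_nonneg (gibX_isHermitian _ _ _ _ _) (hM_posSemidef x y))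
    (trace_exp_pos (gibX_isHermitian _ _ _ _ _)).le

variable {n : ℕ} [NeZero n]

theorem sum_edges_le (β : ℝ) (h : Tor n → ℝ) (Q : Finset (Tor n)) :
    ∑ e ∈ (edges n).toFinset with (e.1 ∈ Q ∧ e.2 ∈ Q), gib (edges n) β h (LRO.hM e.1 e.2) ≤
      ∑ z ∈ tch Q, eb n β h z := by
  classical
  have h1 : ((edges n).toFinset.filter fun e => e.1 ∈ Q ∧ e.2 ∈ Q) ⊆
      (tch Q).image fun z => (z.1, nxt z) := by
    intro e he
    rw [Finset.mem_filter, List.mem_toFinset, edges, List.mem_map] at he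
    obtain ⟨⟨z, -, hz⟩, h2⟩ := he
    rw [Finset.mem_image]
    refine ⟨z, ?_, hz⟩
    rw [tch, Finset.mem_filter]
    refine ⟨Finset.mem_univ _, Or.inl ?_⟩
    rw [← hz] at h2
    exact h2.1
  refine (Finset.sum_le_sum_of_subset_of_nonneg h1 fun e _ _ => gib_hM_nonneg _ _ _ _ _).trans ?_
  exact Finset.sum_image_le_of_nonneg fun z _ => gib_hM_nonneg _ _ _ _ _

/-- the tiling statement (helper351) -/
def TileStmt (C : ℝ) : Prop := ∀ (n : ℕ) [NeZero n] (β : ℝ) (h : Tor n → ℝ) (x0 : Tor n) (w m : ℕ), 0 < w → 0 < m →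
  w * m ≤ n → 3 ≤ n →
  ∑ y : Fin 3 → Fin m, ∑ x ∈ cube n (x0 + fun i => ((w * (y i : ℕ) : ℕ) : ZMod n)) w,
      ∑ x' ∈ cube n (x0 + fun i => ((w * (y i : ℕ) : ℕ) : ZMod n)) w, gib (edges n) β h (LRO.hM x x') ≤
    C * (w : ℝ) ^ 5 * ∑ e ∈ (edges n).toFinset with (e.1 ∈ cube n x0 (w * m) ∧ e.2 ∈ cube n x0 (w * m)),
      gib (edges n) β h (LRO.hM e.1 e.2)

theorem energy_of_tile {C : ℝ} (hC : 0 ≤ C) (hT : TileStmt C) (hcard : ∀ (n : ℕ) [NeZero n] (x : Tor n) (w : ℕ), w ≤ n →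
    (cube n x w).card = w ^ 3) (n : ℕ) [NeZero n] {β : ℝ} (hβ : 0 < β) (w m : ℕ) (hw : 0 < w) (hm : 0 < m)
    (hwm : w * m ≤ n) (hn : 3 ≤ n) (h : Tor n → ℝ) (hh : ∀ x, 0 ≤ h x) (x0 : Tor n) :
    ∑ y : Fin 3 → Fin m, Dst (edges n) β h (cube n (x0 + fun i => ((w * (y i : ℕ) : ℕ) : ZMod n)) w) ≤
      (m : ℝ) ^ 3 * (12 * C * (w : ℝ) ^ 2 * (1 / β + 1 / ((w : ℝ) * m))) := by
  have hw' : (0 : ℝ) < w := by exact_mod_cast hw
  have hm' : (0 : ℝ) < m := by exact_mod_cast hm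
  have hwn : w ≤ n := le_trans (Nat.le_mul_of_pos_right w hm) hwm
  have h1 := hT n β h x0 w m hw hm hwm hn
  have h2 := sum_edges_le β h (cube n x0 (w * m))
  have h3 := energy_cube hβ.le hh x0 (l := w * m) (Nat.mul_pos hw hm)
  have h4 : ∑ z ∈ tch (cube n x0 (w * m)), eb n β h z ≤
      (((w * m : ℕ) : ℝ) ^ 3 + 6 * β * ((w * m : ℕ) : ℝ) ^ 2) / β := by
    rw [le_div_iff₀ hβ, mul_comm]
    exact h3
  have h5 : ∀ y : Fin 3 → Fin m, Dst (edges n) β h (cube n (x0 + fun i => ((w * (y i : ℕ) : ℕ) : ZMod n)) w) =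
      2 / (w : ℝ) ^ 6 * ∑ x ∈ cube n (x0 + fun i => ((w * (y i : ℕ) : ℕ) : ZMod n)) w,
        ∑ x' ∈ cube n (x0 + fun i => ((w * (y i : ℕ) : ℕ) : ZMod n)) w, gib (edges n) β h (LRO.hM x x') := by
    intro y
    rw [Dst, hcard n _ w hwn]
    congr 2
    push_cast
    ring
  simp only [h5]
  rw [← Finset.mul_sum]
  have h6 : C * (w : ℝ) ^ 5 * ∑ e ∈ (edges n).toFinset with (e.1 ∈ cube n x0 (w * m) ∧ e.2 ∈ cube n x0 (w * m)),
      gib (edges n) β h (LRO.hM e.1 e.2) ≤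
      C * (w : ℝ) ^ 5 * ((((w * m : ℕ) : ℝ) ^ 3 + 6 * β * ((w * m : ℕ) : ℝ) ^ 2) / β) :=
    mul_le_mul_of_nonneg_left (h2.trans h4) (by positivity)
  calc 2 / (w : ℝ) ^ 6 * _ ≤ 2 / (w : ℝ) ^ 6 *
        (C * (w : ℝ) ^ 5 * ((((w * m : ℕ) : ℝ) ^ 3 + 6 * β * ((w * m : ℕ) : ℝ) ^ 2) / β)) :=
        mul_le_mul_of_nonneg_left (h1.trans h6) (by positivity)
    _ = (m : ℝ) ^ 3 * (2 * C * (w : ℝ) ^ 2 * (1 / β + 6 / ((w : ℝ) * m))) := by
        push_cast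
        field_simp
    _ ≤ _ := by
        refine mul_le_mul_of_nonneg_left ?_ (by positivity)
        have h7 : (0 : ℝ) < 1 / β := by positivity
        have h8 : (0 : ℝ) < 1 / ((w : ℝ) * m) := by positivity
        have h9 : 6 / ((w : ℝ) * m) = 6 * (1 / ((w : ℝ) * m)) := by ring
        rw [h9]
        have h10 : 0 ≤ C * (w : ℝ) ^ 2 := by positivity
        nlinarith [mul_nonneg h10 h7.le, mul_nonneg h10 h8.le]

end

end Vale.Agent.P361.LRO.Energy
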