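import Vale.Agent.P361.LRO.Energy.TorusR
import Vale.Agent.P361.LRO.Energy.Main

/-!
The tiling statement `TileStmt 12`.
-/

namespace Vale.Agent.P361.LRO.EnR

open Matrix Finset

noncomputable section

/-- `(Fin 3 → α) ≃ α × α × α`. -/
def fin3Equiv (α : Type) : (Fin 3 → α) ≃ α × α × α where
  toFun y := (y 0, y 1, y 2)
  invFun q := ![q.1, q.2.1, q.2.2]
  left_inv y := by ext i; fin_cases i <;> rfl
  right_inv q := rfl

theorem sum_fin3 (m : ℕ) (f : ℕ → ℕ → ℕ → ℝ) :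
    ∑ y : Fin 3 → Fin m, f (y 0) (y 1) (y 2) =
      ∑ a ∈ range m, ∑ b ∈ range m, ∑ c ∈ range m, f a b c := by
  rw [Fintype.sum_equiv (fin3Equiv (Fin m)) (fun y => f (y 0) (y 1) (y 2))
    (fun q => f q.1 q.2.1 q.2.2) (fun y => rfl), Fintype.sum_prod_type]
  rw [Finset.sum_range]
  refine sum_congr rfl fun a _ => ?_
  rw [Fintype.sum_prod_type, Finset.sum_range]
  refine sum_congr rfl fun b _ => ?_
  rw [Finset.sum_range]

theorem edge_inj {n : ℕ} (hn : 2 ≤ n) :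
    Function.Injective fun e : Tor n × Fin 3 => (e.1, e.1 + (Pi.single e.2 1 : Tor n)) := by
  rintro ⟨z, i⟩ ⟨z', i'⟩ h
  simp only [Prod.mk.injEq] at h
  obtain ⟨rfl, h⟩ := h
  have h1 : (Pi.single i 1 : Tor n) = Pi.single i' 1 := add_left_cancel h
  have : Fact (1 < n) := ⟨by omega⟩
  have h2 : i = i' := by
    by_contra hne
    have := congrFun h1 i
    rw [Pi.single_eq_same, Pi.single_eq_of_ne hne] at this
    exact one_ne_zero this
  rw [h2]

theorem sum_edge_le {n : ℕ} [NeZero n] (hn : 2 ≤ n) (Q : Finset (Tor n))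
    (F : Tor n → Tor n → ℝ) :
    ∑ e : Tor n × Fin 3 with (e.1 ∈ Q ∧ e.1 + Pi.single e.2 1 ∈ Q),
        F e.1 (e.1 + Pi.single e.2 1) ≤
      ∑ e ∈ (edges n).toFinset with (e.1 ∈ Q ∧ e.2 ∈ Q), F e.1 e.2 := by
  apply le_of_eq
  have h1 : ((edges n).toFinset.filter fun e => e.1 ∈ Q ∧ e.2 ∈ Q) =
      (univ.filter fun e : Tor n × Fin 3 => e.1 ∈ Q ∧ e.1 + Pi.single e.2 1 ∈ Q).image
        fun e : Tor n × Fin 3 => (e.1, e.1 + (Pi.single e.2 1 : Tor n)) := by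
    ext e
    simp only [mem_filter, List.mem_toFinset, edges, List.mem_map, mem_toList, mem_univ, true_and,
      mem_image, Prod.exists]
    constructor
    · rintro ⟨⟨z, i, rfl⟩, h⟩
      exact ⟨z, i, h, rfl⟩
    · rintro ⟨z, i, h, rfl⟩
      exact ⟨⟨z, i, rfl⟩, h⟩
  rw [h1, sum_image (fun a _ b _ hab => edge_inj hn hab)]

theorem tileStmt : Energy.TileStmt 12 := by
  intro n _ β h x0 w m hw hm hwm hn
  have hwn : w ≤ n := le_trans (Nat.le_mul_of_pos_right w hm) hwm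
  set G : Tor n → Tor n → ℝ := fun x y => gib (edges n) β h (LRO.hM x y) with hG
  have h1 : ∀ y : Fin 3 → Fin m,
      ∑ x ∈ cube n (x0 + fun i => ((w * (y i : ℕ) : ℕ) : ZMod n)) w,
      ∑ x' ∈ cube n (x0 + fun i => ((w * (y i : ℕ) : ℕ) : ZMod n)) w, G x x' =
      pairSum (shp (tp n x0) w (y 0) (y 1) (y 2)) G w := by
    intro y
    rw [pairSum_eq _ hwn, ← tp_shift]
    congr 4
    ext i
    fin_cases i <;> rfl
  have h2 := tile_pair (edges n) β h (tp n x0) w m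
  have h3 := edgeSum_le x0 hwm G (fun x y => gib_hM_nonneg _ _ _ _ _)
  have h4 := sum_edge_le (by omega : 2 ≤ n) (cube n x0 (w * m)) G
  calc _ = ∑ y : Fin 3 → Fin m, pairSum (shp (tp n x0) w (y 0) (y 1) (y 2)) G w :=
        sum_congr rfl fun y _ => h1 y
    _ = ∑ u0 ∈ range m, ∑ u1 ∈ range m, ∑ u2 ∈ range m,
          pairSum (shp (tp n x0) w u0 u1 u2) G w :=
        sum_fin3 m fun u0 u1 u2 => pairSum (shp (tp n x0) w u0 u1 u2) G w
    _ ≤ 12 * (w : ℝ) ^ 5 * edgeSum (tp n x0) G (w * m) := h2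
    _ ≤ _ := mul_le_mul_of_nonneg_left (h3.trans h4) (by positivity)

end

end Vale.Agent.P361.LRO.EnR
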