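import Vale.Agent.P361.LRO.Energy.Done
import Vale.Agent.P361.LRO.Energy.TileMain

/-! # P361 LRO, block (7): `PEnergy 2` and `EnergyStmt` (helper348, helper351) -/

namespace Vale.Agent.P361.LRO

/-- **Block (7)** (Top.lean). -/
theorem pEnergy : PEnergy 2 :=
  Energy.pEnergy_of_tile (by norm_num) EnR.tileStmt fun _ _ x _ hw => EnR.card_cube x hw

/-- **Block (7)** (Top/Iface.lean). -/
theorem energyStmt : EnergyStmt :=
  Energy.energyStmt_of_tile (by norm_num) EnR.tileStmt fun _ _ x _ hw => EnR.card_cube x hw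

end Vale.Agent.P361.LRO
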