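import Vale.Agent.P361.LRO.Defs

/-!
Swap operators on spin-1/2 configurations (real matrices), and the path inequality
`√<h_{xz}> ≤ √<h_{xy}> + 2 √<h_{yz}>` as an inequality of quadratic forms.
-/

namespace Vale.Agent.P361.LRO.EnR

open Matrix Finset

noncomputable section

variable {V : Type} [Fintype V] [DecidableEq V]

/-- `nrm π ψ = ‖ψ - ψ ∘ π‖₂`. -/
def nrm (π : Equiv.Perm V) (ψ : (V → Fin 2) → ℝ) : ℝ :=
  ‖WithLp.toLp 2 (fun σ : V → Fin 2 => ψ σ - ψ (σ ∘ π))‖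

theorem nrm_nonneg (π : Equiv.Perm V) (ψ : (V → Fin 2) → ℝ) : 0 ≤ nrm π ψ := norm_nonneg _

theorem nrm_sq (π : Equiv.Perm V) (ψ : (V → Fin 2) → ℝ) :
    nrm π ψ ^ 2 = ∑ σ : V → Fin 2, (ψ σ - ψ (σ ∘ π)) ^ 2 := by
  rw [nrm, EuclideanSpace.norm_sq_eq]
  refine Finset.sum_congr rfl fun σ _ => ?_
  rw [Real.norm_eq_abs, sq_abs]

/-- Configurations transported by a permutation of the sites. -/
def cfgPerm (π : Equiv.Perm V) : (V → Fin 2) ≃ (V → Fin 2) where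
  toFun σ := σ ∘ π
  invFun σ := σ ∘ π.symm
  left_inv σ := by ext x; simp
  right_inv σ := by ext x; simp

theorem nrm_mul_le (π ρ : Equiv.Perm V) (ψ : (V → Fin 2) → ℝ) :
    nrm (π * ρ) ψ ≤ nrm π ψ + nrm ρ ψ := by
  have h1 : nrm ρ ψ = ‖WithLp.toLp 2 (fun σ : V → Fin 2 => ψ (σ ∘ π) - ψ ((σ ∘ π) ∘ ρ))‖ := by
    unfold nrm
    rw [EuclideanSpace.norm_eq, EuclideanSpace.norm_eq]
    congr 1
    exact ((cfgPerm π).sum_comp (fun σ => ‖ψ σ - ψ (σ ∘ ρ)‖ ^ 2)).symm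
  rw [h1]
  have h2 : WithLp.toLp 2 (fun σ : V → Fin 2 => ψ σ - ψ (σ ∘ (π * ρ : Equiv.Perm V))) =
      WithLp.toLp 2 (fun σ : V → Fin 2 => ψ σ - ψ (σ ∘ π)) +
      WithLp.toLp 2 (fun σ : V → Fin 2 => ψ (σ ∘ π) - ψ ((σ ∘ π) ∘ ρ)) := by
    ext σ
    simp [Function.comp_assoc, Equiv.Perm.coe_mul]
  unfold nrm
  rw [h2]
  exact norm_add_le _ _

theorem nrm_one (ψ : (V → Fin 2) → ℝ) : nrm (1 : Equiv.Perm V) ψ = 0 := by
  have : nrm (1 : Equiv.Perm V) ψ ^ 2 = 0 := by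
    rw [nrm_sq]; simp
  exact pow_eq_zero_iff (two_ne_zero) |>.mp this

theorem nrm_swap_step (x y z : V) (ψ : (V → Fin 2) → ℝ) :
    nrm (Equiv.swap x z) ψ ≤ nrm (Equiv.swap x y) ψ + 2 * nrm (Equiv.swap y z) ψ := by
  by_cases hxz : x = z
  · subst hxz
    rw [Equiv.swap_self]
    have := nrm_one (V := V) ψ
    have h0 : nrm (Equiv.refl V) ψ = 0 := this
    rw [h0]
    have := nrm_nonneg (Equiv.swap x y) ψ
    have := nrm_nonneg (Equiv.swap y x) ψ
    linarith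
  by_cases hxy : x = y
  · subst hxy
    have := nrm_nonneg (Equiv.swap x x) ψ
    have := nrm_nonneg (Equiv.swap x z) ψ
    linarith
  have h := Equiv.swap_mul_swap_mul_swap (x := x) (y := y) (z := z) hxy hxz
  have h1 : Equiv.swap x z = Equiv.swap y z * Equiv.swap x y * Equiv.swap y z := by
    rw [h, Equiv.swap_comm]
  rw [h1]
  have h2 := nrm_mul_le (Equiv.swap y z * Equiv.swap x y) (Equiv.swap y z) ψ
  have h3 := nrm_mul_le (Equiv.swap y z) (Equiv.swap x y) ψ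
  linarith

theorem nrm_swap_comm (x y : V) (ψ : (V → Fin 2) → ℝ) :
    nrm (Equiv.swap x y) ψ = nrm (Equiv.swap y x) ψ := by rw [Equiv.swap_comm]

/-- Moving one end along a sequence of sites, forward. -/
theorem nrm_seg_up (x : V) (q : ℕ → V) (ψ : (V → Fin 2) → ℝ) (a k : ℕ) :
    nrm (Equiv.swap x (q (a + k))) ψ ≤ nrm (Equiv.swap x (q a)) ψ +
      2 * ∑ i ∈ Finset.range k, nrm (Equiv.swap (q (a + i)) (q (a + i + 1))) ψ := by
  induction k with
  | zero => simp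
  | succ k ih =>
    rw [Finset.sum_range_succ]
    have := nrm_swap_step x (q (a + k)) (q (a + k + 1)) ψ
    have e : a + (k + 1) = a + k + 1 := by ring
    rw [e]
    linarith

theorem nrm_seg_down (x : V) (q : ℕ → V) (ψ : (V → Fin 2) → ℝ) (a k : ℕ) :
    nrm (Equiv.swap x (q a)) ψ ≤ nrm (Equiv.swap x (q (a + k))) ψ +
      2 * ∑ i ∈ Finset.range k, nrm (Equiv.swap (q (a + i)) (q (a + i + 1))) ψ := by
  induction k with
  | zero => simp
  | succ k ih =>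
    rw [Finset.sum_range_succ]
    have := nrm_swap_step x (q (a + k + 1)) (q (a + k)) ψ
    rw [nrm_swap_comm (q (a + k + 1))] at this
    have e : a + (k + 1) = a + k + 1 := by ring
    rw [e]
    linarith

/-- Moving one end along a sequence of sites, inside `[0, m]`. -/
theorem nrm_seg (x : V) (q : ℕ → V) (ψ : (V → Fin 2) → ℝ) {a b m : ℕ} (ha : a ≤ m)
    (hb : b ≤ m) :
    nrm (Equiv.swap x (q b)) ψ ≤ nrm (Equiv.swap x (q a)) ψ +
      2 * ∑ i ∈ Finset.range m, nrm (Equiv.swap (q i) (q (i + 1))) ψ := by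
  have key : ∀ c k : ℕ, c + k ≤ m →
      ∑ i ∈ Finset.range k, nrm (Equiv.swap (q (c + i)) (q (c + i + 1))) ψ ≤
      ∑ i ∈ Finset.range m, nrm (Equiv.swap (q i) (q (i + 1))) ψ := by
    intro c k hck
    rw [← Finset.sum_image (s := Finset.range k) (g := fun i => c + i)
      (f := fun i => nrm (Equiv.swap (q i) (q (i + 1))) ψ) (by intro a _ b _ h; simpa using h)]
    apply Finset.sum_le_sum_of_subset_of_nonneg
    · intro i hi
      simp only [Finset.mem_image, Finset.mem_range] at hi ⊢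
      obtain ⟨j, hj, rfl⟩ := hi
      omega
    · intro i _ _
      exact nrm_nonneg _ _
  rcases le_total a b with h | h
  · obtain ⟨k, rfl⟩ := Nat.exists_eq_add_of_le h
    have h1 := nrm_seg_up x q ψ a k
    have h2 := key a k hb
    linarith
  · obtain ⟨k, rfl⟩ := Nat.exists_eq_add_of_le h
    have h1 := nrm_seg_down x q ψ b k
    have h2 := key b k ha
    linarith

theorem swapM_mulVec (x y : V) (ψ : (V → Fin 2) → ℝ) (σ : V → Fin 2) :
    (swapM x y *ᵥ ψ) σ = ψ (σ ∘ Equiv.swap x y) := by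
  have h1 : ∀ τ : V → Fin 2, (σ = τ ∘ Equiv.swap x y) ↔ (σ ∘ Equiv.swap x y = τ) := by
    intro τ
    constructor
    · rintro rfl; ext z; simp
    · rintro rfl; ext z; simp
  simp [swapM, Matrix.mulVec, dotProduct, h1]

/-- The quadratic form of `h_{xy}`. -/
theorem form_hM (x y : V) (ψ : (V → Fin 2) → ℝ) :
    ψ ⬝ᵥ (hM x y *ᵥ ψ) = (1 / 4) * nrm (Equiv.swap x y) ψ ^ 2 := by
  rw [nrm_sq]
  have h1 : ψ ⬝ᵥ (hM x y *ᵥ ψ) =
      (1 / 2) * ∑ σ, ψ σ * (ψ σ - ψ (σ ∘ Equiv.swap x y)) := by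
    rw [hM, Matrix.smul_mulVec, Matrix.sub_mulVec, Matrix.one_mulVec, dotProduct_smul, smul_eq_mul,
      dotProduct]
    congr 1
    refine Finset.sum_congr rfl fun σ _ => ?_
    rw [Pi.sub_apply, swapM_mulVec]
  have hinv : ∀ f : (V → Fin 2) → ℝ, ∑ σ, f (σ ∘ Equiv.swap x y) = ∑ σ, f σ := fun f =>
    (cfgPerm (Equiv.swap x y)).sum_comp f
  have hss : ∀ σ : V → Fin 2, (σ ∘ Equiv.swap x y) ∘ Equiv.swap x y = σ := by
    intro σ; ext z; simp
  have h2 : ∑ σ, ψ σ * (ψ σ - ψ (σ ∘ Equiv.swap x y)) =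
      ∑ σ, ψ (σ ∘ Equiv.swap x y) * (ψ (σ ∘ Equiv.swap x y) - ψ σ) := by
    rw [← hinv (fun σ => ψ σ * (ψ σ - ψ (σ ∘ Equiv.swap x y)))]
    refine Finset.sum_congr rfl fun σ _ => ?_
    rw [hss]
  have h3 : 2 * ∑ σ, ψ σ * (ψ σ - ψ (σ ∘ Equiv.swap x y)) =
      ∑ σ, (ψ σ - ψ (σ ∘ Equiv.swap x y)) ^ 2 := by
    rw [two_mul]
    nth_rewrite 2 [h2]
    rw [← Finset.sum_add_distrib]
    refine Finset.sum_congr rfl fun σ _ => ?_
    ring
  rw [h1, ← h3]
  ring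

/-- Inequalities of quadratic forms pass to `tr (M ·)` for `M = Cᵀ C`. -/
theorem trace_le_of_form_le {ι : Type*} [Fintype ι] [DecidableEq ι] {A B : Matrix ι ι ℝ}
    (C : Matrix ι ι ℝ)
    (h : ∀ ψ : ι → ℝ, ψ ⬝ᵥ (A *ᵥ ψ) ≤ ψ ⬝ᵥ (B *ᵥ ψ)) :
    trace (Cᵀ * C * A) ≤ trace (Cᵀ * C * B) := by
  have key : ∀ X : Matrix ι ι ℝ, trace (Cᵀ * C * X) =
      ∑ i, (C i) ⬝ᵥ (X *ᵥ (C i)) := by
    intro X
    rw [Matrix.mul_assoc, Matrix.trace_mul_comm, Matrix.trace]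
    refine Finset.sum_congr rfl fun i _ => ?_
    rw [Matrix.diag_apply, Matrix.mul_assoc, Matrix.mul_apply, dotProduct]
    refine Finset.sum_congr rfl fun j _ => ?_
    rw [Matrix.mul_apply, Matrix.mulVec, dotProduct]
    rfl
  rw [key A, key B]
  exact Finset.sum_le_sum fun i _ => h _

theorem swapM_transpose (x y : V) : (swapM x y)ᵀ = swapM x y := by
  ext σ τ
  have h1 : (τ = σ ∘ Equiv.swap x y) ↔ (σ = τ ∘ Equiv.swap x y) := by
    constructor
    · rintro rfl; ext z; simp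
    · rintro rfl; ext z; simp
  simp [swapM, h1]

theorem hM_transpose (x y : V) : (hM x y)ᵀ = hM x y := by
  rw [hM, transpose_smul, transpose_sub, transpose_one, swapM_transpose]

theorem ham_transpose (L : List (V × V)) (h : V → ℝ) : (ham L h)ᵀ = ham L h := by
  have h1 : ∀ L : List (V × V), ((L.map fun e => hM e.1 e.2).sum)ᵀ =
      (L.map fun e => hM e.1 e.2).sum := by
    intro L
    induction L with
    | nil => simp
    | cons e L ih => rw [List.map_cons, List.sum_cons, transpose_add, ih, hM_transpose]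
  rw [ham, transpose_sub, h1, transpose_sum]
  congr 1
  refine Finset.sum_congr rfl fun x _ => ?_
  rw [transpose_smul, szM, diagonal_transpose]

/-- The Gibbs weight is `Cᵀ C`. -/
theorem exp_ham_factor (L : List (V × V)) (β : ℝ) (h : V → ℝ) :
    ∃ C : Matrix (V → Fin 2) (V → Fin 2) ℝ, NormedSpace.exp (-β • ham L h) = Cᵀ * C := by
  refine ⟨NormedSpace.exp (-(β / 2) • ham L h), ?_⟩
  rw [← Matrix.exp_transpose, transpose_smul, ham_transpose, ← Matrix.exp_add_of_commute _ _ rfl,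
    ← add_smul]
  congr 2
  ring

theorem gib_le_of_form_le (L : List (V × V)) (β : ℝ) (h : V → ℝ)
    {A B : Matrix (V → Fin 2) (V → Fin 2) ℝ}
    (hAB : ∀ ψ : (V → Fin 2) → ℝ, ψ ⬝ᵥ (A *ᵥ ψ) ≤ ψ ⬝ᵥ (B *ᵥ ψ)) :
    gib L β h A ≤ gib L β h B := by
  obtain ⟨C, hC⟩ := exp_ham_factor L β h
  rw [gib, gib, hC]
  refine div_le_div_of_nonneg_right (trace_le_of_form_le C hAB) ?_
  rw [Matrix.trace]
  refine Finset.sum_nonneg fun i _ => ?_
  rw [Matrix.diag_apply, Matrix.mul_apply]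
  exact Finset.sum_nonneg fun j _ => mul_self_nonneg _

theorem gib_add (L : List (V × V)) (β : ℝ) (h : V → ℝ)
    (A B : Matrix (V → Fin 2) (V → Fin 2) ℝ) :
    gib L β h (A + B) = gib L β h A + gib L β h B := by
  rw [gib, gib, gib, Matrix.mul_add, Matrix.trace_add, add_div]

theorem gib_smul (L : List (V × V)) (β : ℝ) (h : V → ℝ) (c : ℝ)
    (A : Matrix (V → Fin 2) (V → Fin 2) ℝ) :
    gib L β h (c • A) = c * gib L β h A := by
  rw [gib, gib, Matrix.mul_smul, Matrix.trace_smul, smul_eq_mul, mul_div_assoc]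

theorem gib_sum (L : List (V × V)) (β : ℝ) (h : V → ℝ) {ι : Type*} (s : Finset ι)
    (A : ι → Matrix (V → Fin 2) (V → Fin 2) ℝ) :
    gib L β h (∑ i ∈ s, A i) = ∑ i ∈ s, gib L β h (A i) := by
  rw [gib, Matrix.mul_sum, Matrix.trace_sum, Finset.sum_div]
  rfl

end

end Vale.Agent.P361.LRO.EnR
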