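import Vale.Agent.P361.LRO.Energy.Cube

/-!
The path inequality for Gibbs states, and the tiling of a cube of side `w m` by cubes of side `w`.
-/

namespace Vale.Agent.P361.LRO.EnR

open Matrix Finset

noncomputable section

variable {V : Type} [Fintype V] [DecidableEq V]

/-- The pair inequality for every Gibbs state. -/
theorem pair_le_gib (L : List (V × V)) (β : ℝ) (h : V → ℝ) (p : ℕ → ℕ → ℕ → V) (w : ℕ) :
    pairSum p (fun x y => gib L β h (hM x y)) w ≤
      12 * (w : ℝ) ^ 5 * edgeSum p (fun x y => gib L β h (hM x y)) w := by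
  set PM : Matrix (V → Fin 2) (V → Fin 2) ℝ :=
    ∑ a ∈ range w, ∑ b ∈ range w, ∑ c ∈ range w,
    ∑ a' ∈ range w, ∑ b' ∈ range w, ∑ c' ∈ range w, hM (p a b c) (p a' b' c') with hPM
  set EM : Matrix (V → Fin 2) (V → Fin 2) ℝ :=
    ∑ t ∈ range (w - 1), ∑ b ∈ range w, ∑ c ∈ range w, hM (p t b c) (p (t + 1) b c) +
    ∑ a ∈ range w, ∑ t ∈ range (w - 1), ∑ c ∈ range w, hM (p a t c) (p a (t + 1) c) +
    ∑ a ∈ range w, ∑ b ∈ range w, ∑ t ∈ range (w - 1), hM (p a b t) (p a b (t + 1)) with hEM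
  have h1 : pairSum p (fun x y => gib L β h (hM x y)) w = gib L β h PM := by
    rw [hPM]; simp only [gib_sum]; rfl
  have h2 : edgeSum p (fun x y => gib L β h (hM x y)) w = gib L β h EM := by
    rw [hEM]; simp only [gib_sum, gib_add]; rfl
  rw [h1, h2, ← gib_smul]
  apply gib_le_of_form_le
  intro ψ
  have h3 : ψ ⬝ᵥ (PM *ᵥ ψ) =
      (1 / 4) * pairSum p (fun x y => nrm (Equiv.swap x y) ψ ^ 2) w := by
    rw [hPM]
    simp only [Matrix.sum_mulVec, dotProduct_sum, form_hM, pairSum, mul_sum]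
  have h4 : ψ ⬝ᵥ (EM *ᵥ ψ) =
      (1 / 4) * edgeSum p (fun x y => nrm (Equiv.swap x y) ψ ^ 2) w := by
    rw [hEM]
    simp only [Matrix.sum_mulVec, dotProduct_sum, form_hM, edgeSum, ed0, ed1, ed2, mul_sum,
      Matrix.add_mulVec, dotProduct_add, mul_add]
  rw [Matrix.smul_mulVec, dotProduct_smul, smul_eq_mul, h3, h4]
  have := pair_le p ψ w
  linarith

/-- Nonnegativity of `⟨h_{xy}⟩`. -/
theorem gib_hM_nonneg (L : List (V × V)) (β : ℝ) (h : V → ℝ) (x y : V) :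
    0 ≤ gib L β h (hM x y) := by
  have h1 : gib L β h 0 ≤ gib L β h (hM x y) := by
    apply gib_le_of_form_le
    intro ψ
    rw [form_hM, Matrix.zero_mulVec, dotProduct_zero]
    positivity
  have h2 : gib L β h 0 = 0 := by simp [gib]
  linarith

theorem sum_tile (g : ℕ → ℝ) (w m : ℕ) :
    ∑ u ∈ range m, ∑ a ∈ range w, g (w * u + a) = ∑ A ∈ range (w * m), g A := by
  induction m with
  | zero => simp
  | succ m ih => rw [sum_range_succ, ih, Nat.mul_succ, sum_range_add]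

theorem sum_tile_edge (g : ℕ → ℝ) (hg : ∀ t, 0 ≤ g t) (w m : ℕ) :
    ∑ u ∈ range m, ∑ a ∈ range (w - 1), g (w * u + a) ≤ ∑ A ∈ range (w * m - 1), g A := by
  rcases Nat.eq_zero_or_pos w with rfl | hw
  · simp
  induction m with
  | zero => simp
  | succ m ih =>
    rcases Nat.eq_zero_or_pos m with rfl | hm
    · simp
    rw [sum_range_succ]
    have hwm : 1 ≤ w * m := Nat.mul_pos hw hm
    have e : w * (m + 1) - 1 = (w * m - 1) + 1 + (w - 1) := by
      rw [Nat.mul_succ]; omega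
    rw [e, sum_range_add, sum_range_succ]
    have e2 : w * m - 1 + 1 = w * m := by omega
    rw [e2]
    have := hg (w * m - 1)
    linarith

/-- The shifted parametrisation. -/
def shp (p : ℕ → ℕ → ℕ → V) (w u0 u1 u2 : ℕ) : ℕ → ℕ → ℕ → V :=
  fun a b c => p (w * u0 + a) (w * u1 + b) (w * u2 + c)

theorem tile_ed0 (p : ℕ → ℕ → ℕ → V) (F : V → V → ℝ) (hF : ∀ x y, 0 ≤ F x y) (w m : ℕ) :
    ∑ u0 ∈ range m, ∑ u1 ∈ range m, ∑ u2 ∈ range m, ed0 (shp p w u0 u1 u2) F w ≤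
      ed0 p F (w * m) := by
  unfold ed0 shp
  have h1 : ∀ u0 ∈ range m, ∑ u1 ∈ range m, ∑ u2 ∈ range m, ∑ t ∈ range (w - 1),
      ∑ b ∈ range w, ∑ c ∈ range w,
        F (p (w * u0 + t) (w * u1 + b) (w * u2 + c))
          (p (w * u0 + (t + 1)) (w * u1 + b) (w * u2 + c)) =
      ∑ t ∈ range (w - 1), ∑ B ∈ range (w * m), ∑ C ∈ range (w * m),
        F (p (w * u0 + t) B C) (p (w * u0 + t + 1) B C) := by
    intro u0 _
    have e1 : ∀ u1 ∈ range m, ∑ u2 ∈ range m, ∑ t ∈ range (w - 1),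
      ∑ b ∈ range w, ∑ c ∈ range w,
        F (p (w * u0 + t) (w * u1 + b) (w * u2 + c))
          (p (w * u0 + (t + 1)) (w * u1 + b) (w * u2 + c)) =
        ∑ t ∈ range (w - 1), ∑ b ∈ range w, ∑ C ∈ range (w * m),
          F (p (w * u0 + t) (w * u1 + b) C) (p (w * u0 + t + 1) (w * u1 + b) C) := by
      intro u1 _
      rw [sum_comm]
      refine sum_congr rfl fun t _ => ?_
      rw [sum_comm]
      refine sum_congr rfl fun b _ => ?_
      rw [← sum_tile]
      rfl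
    rw [sum_congr rfl e1, sum_comm]
    refine sum_congr rfl fun t _ => ?_
    rw [← sum_tile]
  rw [sum_congr rfl h1]
  exact sum_tile_edge (fun A => ∑ B ∈ range (w * m), ∑ C ∈ range (w * m),
    F (p A B C) (p (A + 1) B C)) (fun t => sum_nonneg fun _ _ => sum_nonneg fun _ _ => hF _ _) w m

theorem tile_ed1 (p : ℕ → ℕ → ℕ → V) (F : V → V → ℝ) (hF : ∀ x y, 0 ≤ F x y) (w m : ℕ) :
    ∑ u0 ∈ range m, ∑ u1 ∈ range m, ∑ u2 ∈ range m, ed1 (shp p w u0 u1 u2) F w ≤
      ed1 p F (w * m) := by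
  unfold ed1 shp
  have h1 : ∀ u0 ∈ range m, ∑ u1 ∈ range m, ∑ u2 ∈ range m, ∑ a ∈ range w,
      ∑ t ∈ range (w - 1), ∑ c ∈ range w,
        F (p (w * u0 + a) (w * u1 + t) (w * u2 + c))
          (p (w * u0 + a) (w * u1 + (t + 1)) (w * u2 + c)) ≤
      ∑ a ∈ range w, ∑ T ∈ range (w * m - 1), ∑ C ∈ range (w * m),
        F (p (w * u0 + a) T C) (p (w * u0 + a) (T + 1) C) := by
    intro u0 _
    have e1 : ∀ u1 ∈ range m, ∑ u2 ∈ range m, ∑ a ∈ range w,
      ∑ t ∈ range (w - 1), ∑ c ∈ range w,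
        F (p (w * u0 + a) (w * u1 + t) (w * u2 + c))
          (p (w * u0 + a) (w * u1 + (t + 1)) (w * u2 + c)) =
        ∑ a ∈ range w, ∑ t ∈ range (w - 1), ∑ C ∈ range (w * m),
          F (p (w * u0 + a) (w * u1 + t) C) (p (w * u0 + a) (w * u1 + t + 1) C) := by
      intro u1 _
      rw [sum_comm]
      refine sum_congr rfl fun t _ => ?_
      rw [sum_comm]
      refine sum_congr rfl fun b _ => ?_
      rw [← sum_tile]
      rfl
    rw [sum_congr rfl e1, sum_comm]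
    refine sum_le_sum fun a _ => ?_
    exact sum_tile_edge (fun B => ∑ C ∈ range (w * m),
      F (p (w * u0 + a) B C) (p (w * u0 + a) (B + 1) C))
      (fun t => sum_nonneg fun _ _ => hF _ _) w m
  refine (sum_le_sum h1).trans (le_of_eq ?_)
  rw [← sum_tile (fun A => ∑ T ∈ range (w * m - 1), ∑ C ∈ range (w * m),
        F (p A T C) (p A (T + 1) C)) w m]

theorem tile_ed2 (p : ℕ → ℕ → ℕ → V) (F : V → V → ℝ) (hF : ∀ x y, 0 ≤ F x y) (w m : ℕ) :
    ∑ u0 ∈ range m, ∑ u1 ∈ range m, ∑ u2 ∈ range m, ed2 (shp p w u0 u1 u2) F w ≤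
      ed2 p F (w * m) := by
  unfold ed2 shp
  have h1 : ∀ u0 ∈ range m, ∑ u1 ∈ range m, ∑ u2 ∈ range m, ∑ a ∈ range w,
      ∑ b ∈ range w, ∑ t ∈ range (w - 1),
        F (p (w * u0 + a) (w * u1 + b) (w * u2 + t))
          (p (w * u0 + a) (w * u1 + b) (w * u2 + (t + 1))) ≤
      ∑ a ∈ range w, ∑ B ∈ range (w * m), ∑ T ∈ range (w * m - 1),
        F (p (w * u0 + a) B T) (p (w * u0 + a) B (T + 1)) := by
    intro u0 _
    have e1 : ∀ u1 ∈ range m, ∑ u2 ∈ range m, ∑ a ∈ range w,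
      ∑ b ∈ range w, ∑ t ∈ range (w - 1),
        F (p (w * u0 + a) (w * u1 + b) (w * u2 + t))
          (p (w * u0 + a) (w * u1 + b) (w * u2 + (t + 1))) ≤
        ∑ a ∈ range w, ∑ b ∈ range w, ∑ T ∈ range (w * m - 1),
          F (p (w * u0 + a) (w * u1 + b) T) (p (w * u0 + a) (w * u1 + b) (T + 1)) := by
      intro u1 _
      rw [sum_comm]
      refine sum_le_sum fun t _ => ?_
      rw [sum_comm]
      refine sum_le_sum fun b _ => ?_
      exact sum_tile_edge (fun T =>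
        F (p (w * u0 + t) (w * u1 + b) T) (p (w * u0 + t) (w * u1 + b) (T + 1)))
        (fun t => hF _ _) w m
    refine (sum_le_sum e1).trans (le_of_eq ?_)
    rw [sum_comm]
    refine sum_congr rfl fun t _ => ?_
    rw [← sum_tile (fun B => ∑ T ∈ range (w * m - 1),
          F (p (w * u0 + t) B T) (p (w * u0 + t) B (T + 1)))]
  refine (sum_le_sum h1).trans (le_of_eq ?_)
  rw [← sum_tile (fun A => ∑ B ∈ range (w * m), ∑ T ∈ range (w * m - 1),
        F (p A B T) (p A B (T + 1))) w m]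

theorem tile_edge (p : ℕ → ℕ → ℕ → V) (F : V → V → ℝ) (hF : ∀ x y, 0 ≤ F x y) (w m : ℕ) :
    ∑ u0 ∈ range m, ∑ u1 ∈ range m, ∑ u2 ∈ range m, edgeSum (shp p w u0 u1 u2) F w ≤
      edgeSum p F (w * m) := by
  have h0 := tile_ed0 p F hF w m
  have h1 := tile_ed1 p F hF w m
  have h2 := tile_ed2 p F hF w m
  simp only [edgeSum, sum_add_distrib]
  linarith

/-- Sum of the pair sums of the blocks. -/
theorem tile_pair (L : List (V × V)) (β : ℝ) (h : V → ℝ) (p : ℕ → ℕ → ℕ → V) (w m : ℕ) :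
    ∑ u0 ∈ range m, ∑ u1 ∈ range m, ∑ u2 ∈ range m,
      pairSum (shp p w u0 u1 u2) (fun x y => gib L β h (hM x y)) w ≤
      12 * (w : ℝ) ^ 5 * edgeSum p (fun x y => gib L β h (hM x y)) (w * m) := by
  calc _ ≤ ∑ u0 ∈ range m, ∑ u1 ∈ range m, ∑ u2 ∈ range m,
      12 * (w : ℝ) ^ 5 * edgeSum (shp p w u0 u1 u2) (fun x y => gib L β h (hM x y)) w :=
        sum_le_sum fun _ _ => sum_le_sum fun _ _ => sum_le_sum fun _ _ =>
          pair_le_gib L β h _ w
    _ = 12 * (w : ℝ) ^ 5 * ∑ u0 ∈ range m, ∑ u1 ∈ range m, ∑ u2 ∈ range m,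
      edgeSum (shp p w u0 u1 u2) (fun x y => gib L β h (hM x y)) w := by
        simp only [mul_sum]
    _ ≤ _ := by
        apply mul_le_mul_of_nonneg_left _ (by positivity)
        exact tile_edge p _ (fun x y => gib_hM_nonneg L β h x y) w m

end

end Vale.Agent.P361.LRO.EnR
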