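import Vale.Agent.P361.LRO.Energy.Tile

/-!
Cubes of the torus: conversion of the sums of `Cube.lean`, `Tile.lean` into sums over the finite
sets `cube n x w`, and the number of boundary edges of a cube.
-/

namespace Vale.Agent.P361.LRO.EnR

open Matrix Finset

noncomputable section

/-- Parametrisation of the sites of the torus around `x`. -/
def tp (n : ℕ) (x : Tor n) : ℕ → ℕ → ℕ → Tor n :=
  fun a b c => x + ![(a : ZMod n), (b : ZMod n), (c : ZMod n)]

theorem natCast_inj_lt {n a b : ℕ} (ha : a < n) (hb : b < n) (h : (a : ZMod n) = (b : ZMod n)) :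
    a = b := by
  have := (ZMod.natCast_eq_natCast_iff' a b n).mp h
  rwa [Nat.mod_eq_of_lt ha, Nat.mod_eq_of_lt hb] at this

theorem tp_inj {n : ℕ} (x : Tor n) {a b c a' b' c' : ℕ} (ha : a < n) (hb : b < n) (hc : c < n)
    (ha' : a' < n) (hb' : b' < n) (hc' : c' < n) (h : tp n x a b c = tp n x a' b' c') :
    a = a' ∧ b = b' ∧ c = c' := by
  have h1 : (![(a : ZMod n), (b : ZMod n), (c : ZMod n)] : Tor n) =
      ![(a' : ZMod n), (b' : ZMod n), (c' : ZMod n)] := add_left_cancel h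
  have e0 := congrFun h1 0
  have e1 := congrFun h1 1
  have e2 := congrFun h1 2
  simp at e0 e1 e2
  exact ⟨natCast_inj_lt ha ha' e0, natCast_inj_lt hb hb' e1, natCast_inj_lt hc hc' e2⟩

/-- Index box. -/
def box (l : ℕ) : Finset (ℕ × ℕ × ℕ) := range l ×ˢ range l ×ˢ range l

theorem sum_box (l : ℕ) (f : ℕ → ℕ → ℕ → ℝ) :
    ∑ q ∈ box l, f q.1 q.2.1 q.2.2 = ∑ a ∈ range l, ∑ b ∈ range l, ∑ c ∈ range l, f a b c := by
  rw [box, sum_product]
  refine sum_congr rfl fun a _ => ?_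
  rw [sum_product]

theorem cube_eq_image (n : ℕ) [NeZero n] (x : Tor n) (w : ℕ) :
    cube n x w = (box w).image fun q => tp n x q.1 q.2.1 q.2.2 := by
  ext z
  simp only [cube, mem_image, mem_univ, true_and, box, mem_product, mem_range, Prod.exists]
  constructor
  · rintro ⟨y, rfl⟩
    refine ⟨y 0, y 1, y 2, ⟨(y 0).2, (y 1).2, (y 2).2⟩, ?_⟩
    rw [tp]
    congr 1
    ext i
    fin_cases i <;> rfl
  · rintro ⟨a, b, c, ⟨ha, hb, hc⟩, rfl⟩
    refine ⟨![⟨a, ha⟩, ⟨b, hb⟩, ⟨c, hc⟩], ?_⟩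
    rw [tp]
    congr 1
    ext i
    fin_cases i <;> rfl

theorem tp_injOn {n : ℕ} (x : Tor n) {l : ℕ} (hl : l ≤ n) :
    Set.InjOn (fun q : ℕ × ℕ × ℕ => tp n x q.1 q.2.1 q.2.2) (box l) := by
  rintro ⟨a, b, c⟩ h ⟨a', b', c'⟩ h' he
  simp only [box, coe_product, coe_range, Set.mem_prod, Set.mem_Iio] at h h'
  obtain ⟨h1, h2, h3⟩ := h
  obtain ⟨h1', h2', h3'⟩ := h'
  obtain ⟨e0, e1, e2⟩ := tp_inj x (h1.trans_le hl) (h2.trans_le hl) (h3.trans_le hl)
    (h1'.trans_le hl) (h2'.trans_le hl) (h3'.trans_le hl) he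
  subst e0 e1 e2
  rfl

theorem card_cube {n : ℕ} [NeZero n] (x : Tor n) {l : ℕ} (hl : l ≤ n) :
    (cube n x l).card = l ^ 3 := by
  rw [cube_eq_image, card_image_of_injOn (tp_injOn x hl), box, card_product, card_product,
    card_range]
  ring

theorem sum_cube {n : ℕ} [NeZero n] (x : Tor n) {l : ℕ} (hl : l ≤ n) (f : Tor n → ℝ) :
    ∑ z ∈ cube n x l, f z =
      ∑ a ∈ range l, ∑ b ∈ range l, ∑ c ∈ range l, f (tp n x a b c) := by
  rw [cube_eq_image, sum_image (tp_injOn x hl)]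
  exact sum_box l fun a b c => f (tp n x a b c)

theorem pairSum_eq {n : ℕ} [NeZero n] (x : Tor n) {w : ℕ} (hw : w ≤ n)
    (F : Tor n → Tor n → ℝ) :
    ∑ z ∈ cube n x w, ∑ z' ∈ cube n x w, F z z' = pairSum (tp n x) F w := by
  rw [sum_cube x hw, pairSum]
  refine sum_congr rfl fun a _ => sum_congr rfl fun b _ => sum_congr rfl fun c _ => ?_
  rw [sum_cube x hw]

theorem tp_shift (n : ℕ) (x : Tor n) (w u0 u1 u2 : ℕ) :
    tp n (x + fun i => ((w * (![u0, u1, u2] i) : ℕ) : ZMod n)) = shp (tp n x) w u0 u1 u2 := by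
  funext a b c
  rw [shp, tp, tp, add_assoc]
  congr 1
  ext i
  fin_cases i <;> simp

/-- The index set of the edges of the torus. -/
theorem tp_succ0 (n : ℕ) (x : Tor n) (t b c : ℕ) :
    tp n x (t + 1) b c = tp n x t b c + Pi.single 0 1 := by
  rw [tp, tp, add_assoc]
  congr 1
  ext i
  fin_cases i <;> simp

theorem tp_succ1 (n : ℕ) (x : Tor n) (a t c : ℕ) :
    tp n x a (t + 1) c = tp n x a t c + Pi.single 1 1 := by
  rw [tp, tp, add_assoc]
  congr 1
  ext i
  fin_cases i <;> simp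

theorem tp_succ2 (n : ℕ) (x : Tor n) (a b t : ℕ) :
    tp n x a b (t + 1) = tp n x a b t + Pi.single 2 1 := by
  rw [tp, tp, add_assoc]
  congr 1
  ext i
  fin_cases i <;> simp

theorem mem_cube_iff {n : ℕ} [NeZero n] (x : Tor n) (l : ℕ) (z : Tor n) :
    z ∈ cube n x l ↔ ∃ a b c, a < l ∧ b < l ∧ c < l ∧ tp n x a b c = z := by
  rw [cube_eq_image]
  simp only [mem_image, box, mem_product, mem_range, Prod.exists]
  constructor
  · rintro ⟨a, b, c, ⟨ha, hb, hc⟩, h⟩; exact ⟨a, b, c, ha, hb, hc, h⟩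
  · rintro ⟨a, b, c, ha, hb, hc, h⟩; exact ⟨a, b, c, ⟨ha, hb, hc⟩, h⟩

theorem ed_le_aux {n : ℕ} [NeZero n] (x : Tor n) {l : ℕ} (hl : l ≤ n) (F : Tor n → Tor n → ℝ)
    (hF : ∀ x y, 0 ≤ F x y) (i : Fin 3) (s : Finset (ℕ × ℕ × ℕ)) (hs : s ⊆ box l)
    (hs' : ∀ q ∈ s, tp n x q.1 q.2.1 q.2.2 + Pi.single i 1 ∈ cube n x l) :
    ∑ q ∈ s, F (tp n x q.1 q.2.1 q.2.2) (tp n x q.1 q.2.1 q.2.2 + Pi.single i 1) ≤
      ∑ z with (z ∈ cube n x l ∧ z + Pi.single i 1 ∈ cube n x l), F z (z + Pi.single i 1) := by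
  have e : ∑ z ∈ s.image (fun q : ℕ × ℕ × ℕ => tp n x q.1 q.2.1 q.2.2),
      F z (z + Pi.single i 1) =
      ∑ q ∈ s, F (tp n x q.1 q.2.1 q.2.2) (tp n x q.1 q.2.1 q.2.2 + Pi.single i 1) :=
    sum_image ((tp_injOn x hl).mono (by exact_mod_cast hs))
  rw [← e]
  apply sum_le_sum_of_subset_of_nonneg
  · intro z hz
    obtain ⟨q, hq, rfl⟩ := mem_image.mp hz
    rw [mem_filter]
    refine ⟨mem_univ _, ?_, hs' q hq⟩
    rw [cube_eq_image]
    exact mem_image_of_mem (fun q : ℕ × ℕ × ℕ => tp n x q.1 q.2.1 q.2.2) (hs hq)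
  · intro z _ _; exact hF _ _

/-- The nearest neighbour sum of the parametrised cube is a sum over edges inside the cube. -/
theorem edgeSum_le {n : ℕ} [NeZero n] (x : Tor n) {l : ℕ} (hl : l ≤ n) (F : Tor n → Tor n → ℝ)
    (hF : ∀ x y, 0 ≤ F x y) :
    edgeSum (tp n x) F l ≤
      ∑ e : Tor n × Fin 3 with (e.1 ∈ cube n x l ∧ e.1 + Pi.single e.2 1 ∈ cube n x l),
        F e.1 (e.1 + Pi.single e.2 1) := by
  have h0 : ed0 (tp n x) F l ≤
      ∑ z with (z ∈ cube n x l ∧ z + Pi.single 0 1 ∈ cube n x l), F z (z + Pi.single 0 1) := by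
    have := ed_le_aux x hl F hF 0 (range (l - 1) ×ˢ range l ×ˢ range l) (by
      intro q hq
      simp only [box, mem_product, mem_range] at hq ⊢
      omega) (by
      intro q hq
      simp only [mem_product, mem_range] at hq
      rw [mem_cube_iff]
      exact ⟨q.1 + 1, q.2.1, q.2.2, by omega, hq.2.1, hq.2.2, tp_succ0 _ _ _ _ _⟩)
    refine le_trans (le_of_eq ?_) this
    rw [sum_product]
    unfold ed0
    refine sum_congr rfl fun a _ => ?_
    rw [sum_product]
    refine sum_congr rfl fun b _ => sum_congr rfl fun c _ => ?_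
    rw [tp_succ0]
  have h1 : ed1 (tp n x) F l ≤
      ∑ z with (z ∈ cube n x l ∧ z + Pi.single 1 1 ∈ cube n x l), F z (z + Pi.single 1 1) := by
    have := ed_le_aux x hl F hF 1 (range l ×ˢ range (l - 1) ×ˢ range l) (by
      intro q hq
      simp only [box, mem_product, mem_range] at hq ⊢
      omega) (by
      intro q hq
      simp only [mem_product, mem_range] at hq
      rw [mem_cube_iff]
      exact ⟨q.1, q.2.1 + 1, q.2.2, hq.1, by omega, hq.2.2, tp_succ1 _ _ _ _ _⟩)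
    refine le_trans (le_of_eq ?_) this
    rw [sum_product]
    unfold ed1
    refine sum_congr rfl fun a _ => ?_
    rw [sum_product]
    refine sum_congr rfl fun b _ => sum_congr rfl fun c _ => ?_
    rw [tp_succ1]
  have h2 : ed2 (tp n x) F l ≤
      ∑ z with (z ∈ cube n x l ∧ z + Pi.single 2 1 ∈ cube n x l), F z (z + Pi.single 2 1) := by
    have := ed_le_aux x hl F hF 2 (range l ×ˢ range l ×ˢ range (l - 1)) (by
      intro q hq
      simp only [box, mem_product, mem_range] at hq ⊢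
      omega) (by
      intro q hq
      simp only [mem_product, mem_range] at hq
      rw [mem_cube_iff]
      exact ⟨q.1, q.2.1, q.2.2 + 1, hq.1, hq.2.1, by omega, tp_succ2 _ _ _ _ _⟩)
    refine le_trans (le_of_eq ?_) this
    rw [sum_product]
    unfold ed2
    refine sum_congr rfl fun a _ => ?_
    rw [sum_product]
    refine sum_congr rfl fun b _ => sum_congr rfl fun c _ => ?_
    rw [tp_succ2]
  have h3 : ∑ e : Tor n × Fin 3 with (e.1 ∈ cube n x l ∧ e.1 + Pi.single e.2 1 ∈ cube n x l),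
        F e.1 (e.1 + Pi.single e.2 1) =
      ∑ i : Fin 3, ∑ z with (z ∈ cube n x l ∧ z + Pi.single i 1 ∈ cube n x l),
        F z (z + Pi.single i 1) := by
    rw [sum_filter, Fintype.sum_prod_type_right]
    refine sum_congr rfl fun i _ => ?_
    rw [sum_filter]
  rw [h3, Fin.sum_univ_three, edgeSum]
  linarith

end

end Vale.Agent.P361.LRO.EnR
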